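import Mathlib

/-!
Uniformly smooth and uniformly convex norms: norming functionals and their moduli.
-/

open Set Filter
open scoped Topology

namespace Vale.Agent.P084.Inf

variable {X : Type*} [NormedAddCommGroup X] [NormedSpace ℝ X]

/-- Uniform convexity on the sphere. -/
def Rotund (X : Type*) [NormedAddCommGroup X] : Prop :=
  ∀ ε : ℝ, 0 < ε → ∃ δ, 0 < δ ∧ ∀ a b : X, ‖a‖ = 1 → ‖b‖ = 1 → ε ≤ ‖a - b‖ → ‖a + b‖ ≤ 2 - δ

/-- Uniform smoothness on the sphere. -/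
def Round (X : Type*) [NormedAddCommGroup X] : Prop :=
  ∀ ε : ℝ, 0 < ε → ∃ δ, 0 < δ ∧ ∀ a b : X, ‖a‖ = 1 → ‖b‖ = 1 → ‖a - b‖ ≤ δ →
    2 - ε * ‖a - b‖ ≤ ‖a + b‖

/-- The unit vector in the direction of `v`. -/
noncomputable def unit (v : X) : X := ‖v‖⁻¹ • v

/-- A norming functional. -/
noncomputable def J (v : X) : StrongDual ℝ X := (exists_dual_vector'' ℝ v).choose

/-- The convexity excess of the norm at `v`. -/
noncomputable def gap (v h : X) : ℝ := ‖v + h‖ - ‖v‖ - J v h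

/-- The symmetrised excess. -/
noncomputable def sgap (v h : X) : ℝ := gap v h + gap v (-h)

theorem norm_unit {v : X} (h : v ≠ 0) : ‖unit v‖ = 1 := by
  simp [unit, norm_smul, h]

theorem norm_J (v : X) : ‖J v‖ ≤ 1 := (exists_dual_vector'' ℝ v).choose_spec.1

theorem J_self (v : X) : J v v = ‖v‖ := (exists_dual_vector'' ℝ v).choose_spec.2

theorem le_norm_of {φ : StrongDual ℝ X} (hφ : ‖φ‖ ≤ 1) (h : X) : φ h ≤ ‖h‖ :=
  (le_abs_self _).trans ((φ.le_opNorm h).trans (mul_le_of_le_one_left (norm_nonneg h) hφ))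

theorem abs_le_norm_of {φ : StrongDual ℝ X} (hφ : ‖φ‖ ≤ 1) (h : X) : |φ h| ≤ ‖h‖ :=
  (φ.le_opNorm h).trans (mul_le_of_le_one_left (norm_nonneg h) hφ)

theorem J_le (v h : X) : J v h ≤ ‖h‖ := le_norm_of (norm_J v) h

theorem abs_J_le (v h : X) : |J v h| ≤ ‖h‖ := abs_le_norm_of (norm_J v) h

theorem gap_nonneg (v h : X) : 0 ≤ gap v h := by
  have := J_le v (v + h)
  rw [map_add, J_self] at this
  simp only [gap]; linarith

theorem sgap_nonneg (v h : X) : 0 ≤ sgap v h := add_nonneg (gap_nonneg v h) (gap_nonneg v (-h))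

theorem gap_le_sgap (v h : X) : gap v h ≤ sgap v h := le_add_of_nonneg_right (gap_nonneg v (-h))

theorem sgap_neg (v h : X) : sgap v (-h) = sgap v h := by
  simp only [sgap, neg_neg]; ring

theorem sgap_eq (v h : X) : sgap v h = ‖v + h‖ + ‖v - h‖ - 2 * ‖v‖ := by
  simp only [sgap, gap, map_neg, sub_eq_add_neg]; ring

@[simp] theorem gap_zero (v : X) : gap v 0 = 0 := by simp [gap]

theorem gap_le_two (v h : X) : gap v h ≤ 2 * ‖h‖ := by
  have h1 := norm_add_le v h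
  have h2 := (abs_le.1 (abs_J_le v h)).1
  simp only [gap]; linarith

theorem gap_convex (v h k : X) {t : ℝ} (h0 : 0 ≤ t) (h1 : t ≤ 1) :
    gap v ((1 - t) • h + t • k) ≤ (1 - t) * gap v h + t * gap v k := by
  have e : v + ((1 - t) • h + t • k) = (1 - t) • (v + h) + t • (v + k) := by module
  have := norm_add_le ((1 - t) • (v + h)) (t • (v + k))
  rw [← e, norm_smul, norm_smul, Real.norm_eq_abs, Real.norm_eq_abs, abs_of_nonneg h0,
    abs_of_nonneg (by linarith)] at this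
  simp only [gap, map_add, map_smul, smul_eq_mul]
  linarith

theorem gap_smul_le (v h : X) {t : ℝ} (h0 : 0 ≤ t) (h1 : t ≤ 1) :
    gap v (t • h) ≤ t * gap v h := by
  simpa using gap_convex v 0 h h0 h1

theorem sgap_smul_le (v h : X) {t : ℝ} (h0 : 0 ≤ t) (h1 : t ≤ 1) :
    sgap v (t • h) ≤ t * sgap v h := by
  have e1 := gap_smul_le v h h0 h1
  have e2 := gap_smul_le v (-h) h0 h1
  rw [smul_neg] at e2
  simp only [sgap]
  linarith

theorem rotund_of_uniformConvex [UniformConvexSpace X] : Rotund X := fun ε hε => by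
  obtain ⟨δ, hδ, h⟩ := UniformConvexSpace.uniform_convex (E := X) hε
  exact ⟨δ, hδ, fun a b ha hb hab => h ha hb hab⟩

theorem round_of_smooth (hs : ∀ ε : ℝ, 0 < ε → ∃ δ, 0 < δ ∧ ∀ x h : X, ‖x‖ = 1 → ‖h‖ ≤ δ →
    ‖x + h‖ + ‖x - h‖ ≤ 2 + ε * ‖h‖) : Round X := fun ε hε => by
  obtain ⟨δ, hδ, hb⟩ := hs ε hε
  refine ⟨min δ 1, lt_min hδ one_pos, fun a b ha hb' hab => ?_⟩
  obtain ⟨m, hm⟩ : ∃ m, m = (1 / 2 : ℝ) • (a + b) := ⟨_, rfl⟩
  obtain ⟨k, hk⟩ : ∃ k, k = (1 / 2 : ℝ) • (a - b) := ⟨_, rfl⟩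
  have e1 : m + k = a := by rw [hm, hk]; module
  have e2 : m - k = b := by rw [hm, hk]; module
  have hk' : ‖k‖ = ‖a - b‖ / 2 := by
    rw [hk, norm_smul, Real.norm_of_nonneg (by norm_num)]; ring
  have hm' : ‖m‖ = ‖a + b‖ / 2 := by
    rw [hm, norm_smul, Real.norm_of_nonneg (by norm_num)]; ring
  have h1 := norm_add_le m k
  rw [e1, ha] at h1
  have hab1 := hab.trans (min_le_right _ _)
  have hr : 1 / 2 ≤ ‖m‖ := by linarith
  have hm0 : (0 : ℝ) < ‖m‖ := by linarith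
  have hsmall : ‖‖m‖⁻¹ • k‖ ≤ δ := by
    rw [norm_smul, norm_inv, norm_norm, inv_mul_le_iff₀ hm0]
    have := hab.trans (min_le_left _ _)
    have := mul_le_mul_of_nonneg_right hr hδ.le
    linarith
  have h2 := hb (‖m‖⁻¹ • m) (‖m‖⁻¹ • k) (norm_unit (norm_pos_iff.1 hm0)) hsmall
  rw [← smul_add, ← smul_sub, e1, e2, norm_smul, norm_smul, norm_smul, norm_inv, norm_norm, ha,
    hb', mul_one] at h2
  field_simp at h2
  have h3 : 0 ≤ ε * ‖a - b‖ := by positivity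
  rw [hk'] at h2
  linarith

theorem Round.norm_le (hX : Round X) : ∀ ε : ℝ, 0 < ε → ∃ δ, 0 < δ ∧ ∀ x h : X, ‖x‖ = 1 →
    ‖h‖ ≤ δ → ‖x + h‖ + ‖x - h‖ ≤ 2 + ε * ‖h‖ := fun ε hε => by
  obtain ⟨δ, hδ, hb⟩ := hX (ε / 16) (by positivity)
  refine ⟨min (δ / 4) (min (1 / 4) (ε / 16)), by positivity, fun x h hx hh => ?_⟩
  have hh1 : ‖h‖ ≤ δ / 4 := hh.trans (min_le_left _ _)
  have hh2 : ‖h‖ ≤ 1 / 4 := hh.trans ((min_le_right _ _).trans (min_le_left _ _))
  have hh3 : ‖h‖ ≤ ε / 16 := hh.trans ((min_le_right _ _).trans (min_le_right _ _))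
  set A := ‖x + h‖ with hA
  set B := ‖x - h‖ with hB
  have a1 : 1 - ‖h‖ ≤ A := by
    have := norm_sub_norm_le x (-h); rw [sub_neg_eq_add, norm_neg, hx] at this; exact this
  have b1 : 1 - ‖h‖ ≤ B := by have := norm_sub_norm_le x h; rw [hx] at this; exact this
  have a2 : A ≤ 1 + ‖h‖ := (norm_add_le x h).trans_eq (by rw [hx])
  have b2 : B ≤ 1 + ‖h‖ := (norm_sub_le x h).trans_eq (by rw [hx])
  have hA0 : x + h ≠ 0 := fun h0 => by rw [hA, h0, norm_zero] at a1; linarith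
  have hB0 : x - h ≠ 0 := fun h0 => by rw [hB, h0, norm_zero] at b1; linarith
  set p := unit (x + h) with hp
  set q := unit (x - h) with hq
  have hAp : A • p = x + h := by rw [hp, unit, smul_inv_smul₀ (norm_ne_zero_iff.2 hA0)]
  have hBq : B • q = x - h := by rw [hq, unit, smul_inv_smul₀ (norm_ne_zero_iff.2 hB0)]
  have hp1 : ‖p - x‖ ≤ 2 * ‖h‖ := by
    have e : p - x = (1 - A) • p + h := by rw [sub_smul, one_smul, hAp]; abel
    rw [e]
    refine (norm_add_le _ _).trans ?_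
    rw [norm_smul, norm_unit hA0, mul_one, Real.norm_eq_abs]
    have : |1 - A| ≤ ‖h‖ := abs_le.2 ⟨by linarith, by linarith⟩
    linarith
  have hq1 : ‖q - x‖ ≤ 2 * ‖h‖ := by
    have e : q - x = (1 - B) • q + -h := by rw [sub_smul, one_smul, hBq]; abel
    rw [e]
    refine (norm_add_le _ _).trans ?_
    rw [norm_smul, norm_unit hB0, mul_one, Real.norm_eq_abs, norm_neg]
    have : |1 - B| ≤ ‖h‖ := abs_le.2 ⟨by linarith, by linarith⟩
    linarith
  have hpq : ‖p - q‖ ≤ 4 * ‖h‖ := by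
    have := norm_sub_le_norm_sub_add_norm_sub p x q
    rw [norm_sub_rev x q] at this
    linarith
  have h4 := hb p q (norm_unit hA0) (norm_unit hB0) (by linarith)
  have key : ((A + B) / 2) * ‖p + q‖ - |(A - B) / 2| * ‖p - q‖ ≤ 2 := by
    have e : ((A + B) / 2) • (p + q) = (x + h + (x - h)) - ((A - B) / 2) • (p - q) := by
      rw [← hAp, ← hBq]; module
    have := norm_sub_le (x + h + (x - h)) (((A - B) / 2) • (p - q))
    rw [← e, norm_smul, norm_smul, Real.norm_of_nonneg (by positivity), Real.norm_eq_abs,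
      show x + h + (x - h) = (2 : ℝ) • x by module, norm_smul, hx, Real.norm_two, mul_one] at this
    linarith
  have h5 : |(A - B) / 2| * ‖p - q‖ ≤ ‖h‖ * (4 * ‖h‖) :=
    mul_le_mul (abs_le.2 ⟨by linarith, by linarith⟩) hpq (norm_nonneg _) (norm_nonneg h)
  have h6 : ((A + B) / 2) * (2 - ε / 16 * (4 * ‖h‖)) ≤ (A + B) / 2 * ‖p + q‖ := by
    refine mul_le_mul_of_nonneg_left ?_ (by positivity)
    have := mul_le_mul_of_nonneg_left hpq (show 0 ≤ ε / 16 by positivity)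
    linarith
  have h7 : (A + B) * (ε * ‖h‖) ≤ 3 * (ε * ‖h‖) :=
    mul_le_mul_of_nonneg_right (by linarith) (by positivity)
  have h8 : ‖h‖ * (4 * ‖h‖) ≤ ‖h‖ * (ε / 4) :=
    mul_le_mul_of_nonneg_left (by linarith) (norm_nonneg h)
  have : 0 ≤ ε * ‖h‖ := by positivity
  linarith

theorem Round.smooth_bound (hX : Round X) : ∀ ε : ℝ, 0 < ε → ∃ δ, 0 < δ ∧ ∀ (v : X)
    (φ : StrongDual ℝ X) (h : X), ‖v‖ = 1 → ‖φ‖ ≤ 1 → φ v = 1 → ‖h‖ ≤ δ →
    ‖v + h‖ - 1 - φ h ≤ ε * ‖h‖ := fun ε hε => by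
  obtain ⟨δ, hδ, hb⟩ := hX.norm_le ε hε
  refine ⟨δ, hδ, fun v φ h hv hφ hφv hh => ?_⟩
  have h1 := hb v h hv hh
  have h2 := le_norm_of hφ (v - h)
  rw [map_sub, hφv] at h2
  linarith

theorem Round.J_unique (hX : Round X) {v : X} (hv : v ≠ 0) {φ : StrongDual ℝ X} (hφ : ‖φ‖ ≤ 1)
    (hφv : φ v = ‖v‖) : φ = J v := by
  have hp := norm_pos_iff.2 hv
  have key : ∀ h, φ h ≤ J v h := by
    intro h
    refine le_of_forall_pos_le_add fun e he => ?_
    obtain ⟨δ, hδ, hb⟩ := hX.smooth_bound (e / (‖h‖ + 1)) (by positivity)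
    set t := δ / (‖h‖ + 1) with ht
    have ht0 : 0 < t := by positivity
    have hth : ‖t • h‖ ≤ δ := by
      rw [norm_smul, Real.norm_of_nonneg ht0.le, ht, div_mul_eq_mul_div, div_le_iff₀ (by positivity)]
      exact mul_le_mul_of_nonneg_left (by linarith) hδ.le
    have h1 := hb (unit v) (J v) (t • h) (norm_unit hv) (norm_J v)
      (by rw [unit, map_smul, J_self, smul_eq_mul, inv_mul_cancel₀ hp.ne']) hth
    have h2 := le_norm_of hφ (unit v + t • h)
    rw [map_add, map_smul, unit, map_smul, hφv, smul_eq_mul, smul_eq_mul,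
      inv_mul_cancel₀ hp.ne'] at h2
    rw [map_smul, smul_eq_mul, norm_smul, Real.norm_of_nonneg ht0.le, unit] at h1
    have h3 : t * φ h ≤ t * (J v h + e / (‖h‖ + 1) * ‖h‖) := by linarith
    have h4 := le_of_mul_le_mul_left h3 ht0
    have h5 : e / (‖h‖ + 1) * ‖h‖ ≤ e := by
      rw [div_mul_eq_mul_div, div_le_iff₀ (by positivity)]
      exact mul_le_mul_of_nonneg_left (by linarith) he.le
    linarith
  ext h
  have := key (-h)
  rw [map_neg, map_neg] at this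
  linarith [key h]

theorem Round.J_smul (hX : Round X) {v : X} (hv : v ≠ 0) {c : ℝ} (hc : 0 < c) :
    J (c • v) = J v :=
  (hX.J_unique (smul_ne_zero hc.ne' hv) (norm_J v) (by
    rw [map_smul, J_self, norm_smul, Real.norm_of_nonneg hc.le, smul_eq_mul])).symm

theorem Round.J_neg (hX : Round X) {v : X} (hv : v ≠ 0) : J (-v) = -J v :=
  (hX.J_unique (neg_ne_zero.2 hv) ((ContinuousLinearMap.opNorm_neg (J v)).trans_le (norm_J v)) (by
    rw [ContinuousLinearMap.neg_apply, map_neg, neg_neg, J_self, norm_neg])).symm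

theorem Round.gap_scale (hX : Round X) {v : X} (hv : v ≠ 0) {c : ℝ} (hc : 0 < c) (h : X) :
    gap (c • v) (c • h) = c * gap v h := by
  simp only [gap, hX.J_smul hv hc, ← smul_add, norm_smul, Real.norm_of_nonneg hc.le, map_smul,
    smul_eq_mul]
  ring

theorem Round.sgap_scale (hX : Round X) {v : X} (hv : v ≠ 0) {c : ℝ} (hc : 0 < c) (h : X) :
    sgap (c • v) (c • h) = c * sgap v h := by
  simp only [sgap, ← smul_neg, hX.gap_scale hv hc, mul_add]

theorem Round.gap_small (hX : Round X) : ∀ ε : ℝ, 0 < ε → ∃ δ, 0 < δ ∧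
    ∀ v h : X, v ≠ 0 → ‖h‖ ≤ δ * ‖v‖ → gap v h ≤ ε * ‖h‖ := fun ε hε => by
  obtain ⟨δ, hδ, hb⟩ := hX.smooth_bound ε hε
  refine ⟨δ, hδ, fun v h hv hh => ?_⟩
  have hp := norm_pos_iff.2 hv
  have h1 := hb (unit v) (J v) (‖v‖⁻¹ • h) (norm_unit hv) (norm_J v)
    (by rw [unit, map_smul, J_self, smul_eq_mul, inv_mul_cancel₀ hp.ne'])
    (by rw [norm_smul, norm_inv, norm_norm, inv_mul_le_iff₀ hp]; linarith)
  rw [unit, ← smul_add, norm_smul, norm_smul, norm_inv, norm_norm, map_smul, smul_eq_mul] at h1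
  have e : gap v h = ‖v‖ * (‖v‖⁻¹ * ‖v + h‖ - 1 - ‖v‖⁻¹ * J v h) := by
    simp only [gap]; field_simp
  rw [e]
  refine (mul_le_mul_of_nonneg_left h1 hp.le).trans_eq ?_
  field_simp

/-- The excess is uniformly Lipschitz with a small constant. -/
theorem Round.gap_lip (hX : Round X) : ∀ ε : ℝ, 0 < ε → ∃ δ, 0 < δ ∧ ∀ v h k : X, v ≠ 0 →
    ‖h‖ ≤ δ * ‖v‖ → ‖k‖ ≤ δ * ‖v‖ → gap v h - gap v k ≤ ε * ‖h - k‖ := fun ε hε => by
  obtain ⟨δ, hδ, hb⟩ := hX.gap_small (ε / 2) (half_pos hε)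
  refine ⟨δ / 2, half_pos hδ, fun v h k hv hh hk => ?_⟩
  rcases eq_or_ne h k with rfl | hne
  · simp
  have hd : 0 < ‖h - k‖ := norm_pos_iff.2 (sub_ne_zero.2 hne)
  set T := δ / 2 * ‖v‖ with hT
  have hT0 : 0 < T := mul_pos (half_pos hδ) (norm_pos_iff.2 hv)
  set e := h + (T / ‖h - k‖) • (h - k) with he
  set l := ‖h - k‖ / (T + ‖h - k‖) with hl
  have hTd : 0 < T + ‖h - k‖ := by linarith
  have hl0 : 0 ≤ l := by positivity
  have hl1 : l ≤ 1 := by rw [hl, div_le_one hTd]; linarith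
  have hh' : (1 - l) • k + l • e = h := by
    rw [he, smul_add, smul_smul]
    have : l * (T / ‖h - k‖) = 1 - l := by rw [hl]; field_simp; ring
    rw [this]; module
  have hen : ‖e‖ ≤ δ * ‖v‖ := by
    refine (norm_add_le _ _).trans ?_
    rw [norm_smul, Real.norm_of_nonneg (by positivity), div_mul_cancel₀ _ hd.ne']
    linarith
  have h2 := hb v e hv hen
  have h1 := gap_convex v k e hl0 hl1
  rw [hh'] at h1
  have h3 : 0 ≤ gap v k := gap_nonneg v k
  have h4 : l * gap v e ≤ l * (ε / 2 * (2 * T)) := by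
    refine mul_le_mul_of_nonneg_left (h2.trans ?_) hl0
    refine mul_le_mul_of_nonneg_left ?_ (by positivity)
    linarith
  have h5 : l * T ≤ ‖h - k‖ := by
    rw [hl, div_mul_eq_mul_div, div_le_iff₀ hTd]
    exact mul_le_mul_of_nonneg_left (by linarith) hd.le
  have h6 : ε * (l * T) ≤ ε * ‖h - k‖ := mul_le_mul_of_nonneg_left h5 hε.le
  have h7 : 0 ≤ l * gap v k := mul_nonneg hl0 h3
  linarith

theorem Round.sgap_lip (hX : Round X) : ∀ ε : ℝ, 0 < ε → ∃ δ, 0 < δ ∧ ∀ v h k : X, v ≠ 0 →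
    ‖h‖ ≤ δ * ‖v‖ → ‖k‖ ≤ δ * ‖v‖ → sgap v h - sgap v k ≤ ε * ‖h - k‖ := fun ε hε => by
  obtain ⟨δ, hδ, hb⟩ := hX.gap_lip (ε / 2) (half_pos hε)
  refine ⟨δ, hδ, fun v h k hv hh hk => ?_⟩
  have h1 := hb v h k hv hh hk
  have h2 := hb v (-h) (-k) hv (by rwa [norm_neg]) (by rwa [norm_neg])
  rw [show -h - -k = -(h - k) by abel, norm_neg] at h2
  simp only [sgap]
  linarith

/-- Near-norming vectors determine the norming functional. -/
theorem Round.J_close (hX : Round X) : ∀ ε : ℝ, 0 < ε → ∃ δ, 0 < δ ∧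
    ∀ (v : X) (φ : StrongDual ℝ X), ‖v‖ = 1 → ‖φ‖ ≤ 1 → 1 - δ ≤ φ v → ‖φ - J v‖ ≤ ε := fun ε hε => by
  obtain ⟨δ, hδ, hb⟩ := hX.smooth_bound (ε / 2) (half_pos hε)
  refine ⟨δ * (ε / 2), by positivity, fun v φ hv hφ hφv => ?_⟩
  have hb' : ∀ h : X, ‖h‖ ≤ δ → φ h - J v h ≤ δ * ε := by
    intro h hh
    have h1 := le_norm_of hφ (v + h)
    have h2 := hb v (J v) h hv (norm_J v) (by rw [J_self, hv]) hh
    rw [map_add] at h1
    have := mul_le_mul_of_nonneg_left hh (show 0 ≤ ε / 2 by positivity)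
    linarith
  refine ContinuousLinearMap.opNorm_le_bound _ hε.le fun h => ?_
  rcases eq_or_ne h 0 with rfl | h0
  · simp
  have hn := norm_pos_iff.2 h0
  have hc : ‖(δ / ‖h‖) • h‖ ≤ δ := by
    rw [norm_smul, Real.norm_of_nonneg (by positivity), div_mul_cancel₀ _ hn.ne']
  have h1 := hb' _ hc
  have h2 := hb' (-((δ / ‖h‖) • h)) (by rwa [norm_neg])
  simp only [map_neg, map_smul, smul_eq_mul] at h1 h2
  rw [sub_apply, Real.norm_eq_abs]
  have hcoef : 0 < δ / ‖h‖ := by positivity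
  have h3 : δ * ε = δ / ‖h‖ * (ε * ‖h‖) := by field_simp
  refine abs_le.2 ⟨?_, ?_⟩
  · by_contra hlt
    have := mul_lt_mul_of_pos_left (not_le.1 hlt) hcoef
    linarith
  · by_contra hlt
    have := mul_lt_mul_of_pos_left (not_le.1 hlt) hcoef
    linarith

theorem exists_near_norming [Nontrivial X] (φ : StrongDual ℝ X) {δ : ℝ} (hδ : 0 < δ) :
    ∃ v : X, ‖v‖ = 1 ∧ ‖φ‖ - δ ≤ φ v := by
  rcases le_or_gt ‖φ‖ δ with h | h
  · obtain ⟨w, hw⟩ := exists_ne (0 : X)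
    rcases le_total 0 (φ (unit w)) with h0 | h0
    · exact ⟨unit w, norm_unit hw, by linarith⟩
    · exact ⟨-unit w, by rw [norm_neg, norm_unit hw], by rw [map_neg]; linarith⟩
  obtain ⟨z, hz, hzφ⟩ := φ.exists_lt_apply_of_lt_opNorm (show ‖φ‖ - δ < ‖φ‖ by linarith)
  rw [Real.norm_eq_abs] at hzφ
  have hz0 : z ≠ 0 := by rintro rfl; simp at hzφ; linarith
  have hge : |φ z| ≤ |φ (unit z)| := by
    rw [unit, map_smul, smul_eq_mul, abs_mul, abs_inv, abs_norm]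
    exact le_mul_of_one_le_left (abs_nonneg _) ((one_le_inv₀ (norm_pos_iff.2 hz0)).2 hz.le)
  rcases le_total 0 (φ (unit z)) with h0 | h0
  · rw [abs_of_nonneg h0] at hge
    exact ⟨unit z, norm_unit hz0, by linarith⟩
  · rw [abs_of_nonpos h0] at hge
    exact ⟨-unit z, by rw [norm_neg, norm_unit hz0], by rw [map_neg]; linarith⟩

/-- First-order expansion of the dual norm. -/
theorem Rotund.dual_smooth (hX : Rotund X) [Nontrivial X] : ∀ ε : ℝ, 0 < ε → ∃ t0, 0 < t0 ∧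
    ∀ (u : X) (θ : StrongDual ℝ X) (t : ℝ), ‖u‖ = 1 → ‖θ‖ ≤ 1 → |t| ≤ t0 →
      ‖J u + t • θ‖ ≤ 1 + t * θ u + ε * |t| := fun ε hε => by
  obtain ⟨δ, hδ, hb⟩ := hX ε hε
  refine ⟨δ / 4, by positivity, fun u θ t hu hθ ht => ?_⟩
  refine le_of_forall_pos_le_add fun e he => ?_
  obtain ⟨z, hz, hval⟩ := exists_near_norming (J u + t • θ) (lt_min he (show 0 < δ / 4 by positivity))
  rw [add_apply, smul_apply, smul_eq_mul] at hval
  have hval1 : ‖J u + t • θ‖ - e ≤ J u z + t * θ z :=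
    le_trans (by linarith [min_le_left e (δ / 4)]) hval
  have hJz := J_le u z
  rw [hz] at hJz
  have hlow : 1 - |t| ≤ ‖J u + t • θ‖ := by
    have h1 := (J u + t • θ).le_opNorm u
    rw [Real.norm_eq_abs, hu, mul_one, add_apply, smul_apply, smul_eq_mul, J_self, hu] at h1
    have h2 := abs_le_norm_of hθ u
    rw [hu] at h2
    have h3 : |t * θ u| ≤ |t| := by
      rw [abs_mul]; exact mul_le_of_le_one_right (abs_nonneg t) h2
    linarith [le_abs_self (1 + t * θ u), (abs_le.1 h3).1]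
  have hclose : ‖u - z‖ < ε := by
    by_contra hge
    have h1 := hb u z hu hz (not_lt.1 hge)
    have h2 := J_le u (u + z)
    rw [map_add, J_self, hu] at h2
    have h3 := abs_le_norm_of hθ z
    rw [hz] at h3
    have h4 : |t * θ z| ≤ |t| := by
      rw [abs_mul]; exact mul_le_of_le_one_right (abs_nonneg t) h3
    linarith [(abs_le.1 h4).2, min_le_right e (δ / 4)]
  have h3 : t * θ z ≤ t * θ u + ε * |t| := by
    have h4 : |θ (z - u)| ≤ ε :=
      (abs_le_norm_of hθ (z - u)).trans (by rw [norm_sub_rev]; exact hclose.le)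
    rw [map_sub] at h4
    have h5 : |t * (θ z - θ u)| ≤ ε * |t| := by
      rw [abs_mul, mul_comm ε]
      exact mul_le_mul_of_nonneg_left h4 (abs_nonneg t)
    linarith [(abs_le.1 h5).2]
  linarith

end Vale.Agent.P084.Inf
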