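import Mathlib
import Vale.Agent.P084.Inf.Smooth

/-!
Asymptotic moduli and families of asymptotically tangent vectors.
-/

open Set Filter
open scoped Topology

namespace Vale.Agent.P084.Inf

variable {X Y : Type*} [NormedAddCommGroup X] [NormedSpace ℝ X] [NormedAddCommGroup Y]
  [NormedSpace ℝ Y]

/-- `a` is annihilated by all functionals in `F`. -/
def Kills (F : Finset (StrongDual ℝ X)) (a : X) : Prop := ∀ φ ∈ F, φ a = 0

/-- The supremum of the excess on the kernel of `F`. -/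
noncomputable def supAt (v : X) (s : ℝ) (F : Finset (StrongDual ℝ X)) : ℝ :=
  sSup (sgap v '' {a | ‖a‖ ≤ s ∧ Kills F a})

/-- The asymptotic modulus at one point. -/
noncomputable def phiAt (v : X) (s : ℝ) : ℝ := ⨅ F : Finset (StrongDual ℝ X), supAt v s F

/-- The asymptotic modulus of smoothness. -/
noncomputable def Phi (X : Type*) [NormedAddCommGroup X] [NormedSpace ℝ X] (s : ℝ) : ℝ :=
  sSup ((fun v : X => phiAt v s) '' Metric.sphere 0 1)

theorem sgap_le_four (v h : X) : sgap v h ≤ 4 * ‖h‖ := by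
  have h1 := gap_le_two v h
  have h2 := gap_le_two v (-h)
  rw [norm_neg] at h2
  simp only [sgap]; linarith

theorem supAt_bdd (v : X) (s : ℝ) (F : Finset (StrongDual ℝ X)) :
    BddAbove (sgap v '' {a | ‖a‖ ≤ s ∧ Kills F a}) :=
  ⟨4 * s, by rintro _ ⟨a, ⟨ha, -⟩, rfl⟩; linarith [sgap_le_four v a]⟩

theorem supAt_nonneg (v : X) {s : ℝ} (hs : 0 ≤ s) (F : Finset (StrongDual ℝ X)) :
    0 ≤ supAt v s F :=
  le_csSup (supAt_bdd v s F) ⟨0, ⟨by simpa using hs, fun φ _ => map_zero φ⟩, by simp [sgap]⟩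

theorem supAt_le (v : X) {s : ℝ} (hs : 0 ≤ s) (F : Finset (StrongDual ℝ X)) {B : ℝ}
    (h : ∀ a, ‖a‖ ≤ s → Kills F a → sgap v a ≤ B) : supAt v s F ≤ B :=
  csSup_le ⟨_, mem_image_of_mem _ (show (0 : X) ∈ _ from ⟨by simpa using hs, fun φ _ => map_zero φ⟩)⟩
    (by rintro _ ⟨a, ⟨ha, hk⟩, rfl⟩; exact h a ha hk)

theorem phiAt_le (v : X) {s : ℝ} (hs : 0 ≤ s) (F : Finset (StrongDual ℝ X)) :
    phiAt v s ≤ supAt v s F :=
  ciInf_le ⟨0, by rintro _ ⟨G, rfl⟩; exact supAt_nonneg v hs G⟩ F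

theorem phi_bdd (s : ℝ) (hs : 0 ≤ s) :
    BddAbove ((fun v : X => phiAt v s) '' Metric.sphere 0 1) :=
  ⟨4 * s, by
    rintro _ ⟨v, -, rfl⟩
    refine (phiAt_le v hs ∅).trans (supAt_le v hs ∅ fun a ha _ => ?_)
    linarith [sgap_le_four v a]⟩

theorem exists_kills_le {v : X} (hv : ‖v‖ = 1) {s : ℝ} (hs : 0 ≤ s) {η : ℝ} (hη : 0 < η) :
    ∃ F, ∀ a, ‖a‖ ≤ s → Kills F a → sgap v a ≤ Phi X s + η := by
  obtain ⟨F, hF⟩ := exists_lt_of_ciInf_lt (show phiAt v s < phiAt v s + η by linarith)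
  refine ⟨F, fun a ha hk => ?_⟩
  have h1 : sgap v a ≤ supAt v s F := le_csSup (supAt_bdd v s F) ⟨a, ⟨ha, hk⟩, rfl⟩
  have h2 : phiAt v s ≤ Phi X s :=
    le_csSup (phi_bdd s hs) ⟨v, mem_sphere_zero_iff_norm.2 hv, rfl⟩
  linarith

theorem exists_above {s : ℝ} (hs : 0 ≤ s) {t : ℝ} (ht : t < Phi X s) (ht0 : 0 ≤ t) :
    ∃ v : X, ‖v‖ = 1 ∧ ∀ F : Finset (StrongDual ℝ X), ∃ a, ‖a‖ ≤ s ∧ Kills F a ∧ t < sgap v a := by
  rcases (Metric.sphere (0 : X) 1).eq_empty_or_nonempty with he | hne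
  · simp only [Phi, he, image_empty, Real.sSup_empty] at ht
    linarith
  obtain ⟨_, ⟨v, hv, rfl⟩, hlt⟩ := exists_lt_of_lt_csSup (hne.image _) ht
  refine ⟨v, mem_sphere_zero_iff_norm.1 hv, fun F => ?_⟩
  have h1 : t < supAt v s F := lt_of_lt_of_le hlt (phiAt_le v hs F)
  obtain ⟨_, ⟨a, ⟨ha, hk⟩, rfl⟩, hla⟩ := exists_lt_of_lt_csSup
    ⟨_, mem_image_of_mem _ (show (0 : X) ∈ {a | ‖a‖ ≤ s ∧ Kills F a} from
      ⟨by simpa using hs, fun φ _ => map_zero φ⟩)⟩ h1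
  exact ⟨a, ha, hk, hla⟩

theorem phi_mono {s t : ℝ} (hs : 0 ≤ s) (hst : s ≤ t) : Phi X s ≤ Phi X t := by
  rcases (Metric.sphere (0 : X) 1).eq_empty_or_nonempty with he | hne
  · simp [Phi, he]
  refine csSup_le (hne.image _) ?_
  rintro _ ⟨v, hv, rfl⟩
  refine le_of_forall_pos_le_add fun η hη => ?_
  obtain ⟨F, hF⟩ := exists_kills_le (mem_sphere_zero_iff_norm.1 hv) (hs.trans hst) hη
  exact (phiAt_le v hs F).trans (supAt_le v hs F fun a ha hk => hF a (ha.trans hst) hk)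

theorem phi_nonneg {s : ℝ} (hs : 0 ≤ s) : 0 ≤ Phi X s :=
  Real.sSup_nonneg (by
    rintro _ ⟨v, -, rfl⟩
    exact le_ciInf fun F => supAt_nonneg v hs F)

theorem Round.phi_small (hX : Round X) {ε : ℝ} (hε : 0 < ε) :
    ∃ δ, 0 < δ ∧ ∀ s, 0 ≤ s → s ≤ δ → Phi X s ≤ ε * s := by
  obtain ⟨δ, hδ, hb⟩ := hX.gap_small (ε / 2) (half_pos hε)
  refine ⟨δ, hδ, fun s hs hsδ => ?_⟩
  refine Real.sSup_le ?_ (mul_nonneg hε.le hs)
  rintro _ ⟨v, hv, rfl⟩
  have hv1 := mem_sphere_zero_iff_norm.1 hv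
  have hv0 : v ≠ 0 := norm_pos_iff.1 (by rw [hv1]; exact one_pos)
  refine (phiAt_le v hs ∅).trans (supAt_le v hs ∅ fun a ha _ => ?_)
  have h1 := hb v a hv0 (by rw [hv1, mul_one]; linarith)
  have h2 := hb v (-a) hv0 (by rw [norm_neg, hv1, mul_one]; linarith)
  rw [norm_neg] at h2
  have := mul_le_mul_of_nonneg_left ha hε.le
  simp only [sgap]; linarith

/-- A family that is weakly small lies near the kernel of any finite set of functionals. -/
theorem near_kills {ι : Type*} {l : Filter ι} (F : Finset (StrongDual ℝ X)) (h : ι → X)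
    {r C η : ℝ} (hη : 0 < η) (hw : ∀ φ : StrongDual ℝ X, ‖φ‖ ≤ 1 → ∀ᶠ i in l, |φ (h i)| ≤ C)
    (hr : ∀ᶠ i in l, ‖h i‖ ≤ r) : ∀ᶠ i in l, ∃ w, Kills F w ∧ ‖h i - w‖ ≤ C + η := by
  classical
  set V : Submodule ℝ (StrongDual ℝ X) := Submodule.span ℝ (F : Set (StrongDual ℝ X)) with hV
  haveI : FiniteDimensional ℝ V := FiniteDimensional.span_of_finite ℝ F.finite_toSet
  set ρ := η / (2 * (|r| + 1)) with hρ
  have hρ0 : 0 < ρ := by positivity
  obtain ⟨T, hTsub, hTfin, hT⟩ :=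
    (isCompact_closedBall (0 : V) 1).totallyBounded.exists_subset (Metric.dist_mem_uniformity hρ0)
  have hev : ∀ᶠ i in l, ∀ ψ ∈ T, |(ψ : StrongDual ℝ X) (h i)| ≤ C := by
    rw [hTfin.eventually_all]
    intro ψ hψ
    exact hw _ (mem_closedBall_zero_iff.1 (hTsub hψ))
  filter_upwards [hev, hr] with i hi hri
  set K : Submodule ℝ X := ⨅ φ : F, LinearMap.ker (φ.1 : X →ₗ[ℝ] ℝ) with hK
  haveI : IsClosed (K : Set X) := by
    rw [hK, Submodule.coe_iInf]
    exact isClosed_iInter fun φ => φ.1.isClosed_ker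
  obtain ⟨g, hg1, hg2⟩ := exists_dual_vector'' ℝ (Submodule.Quotient.mk (h i) : X ⧸ K)
  set φ : StrongDual ℝ X := LinearMap.mkContinuous ((g : X ⧸ K →ₗ[ℝ] ℝ).comp K.mkQ) 1 (fun x => by
    rw [one_mul]
    refine (g.le_opNorm _).trans ((mul_le_of_le_one_left (norm_nonneg _) hg1).trans ?_)
    exact Submodule.Quotient.norm_mk_le K x) with hφ
  have hφ1 : ‖φ‖ ≤ 1 := LinearMap.mkContinuous_norm_le _ zero_le_one _
  have hφV : φ ∈ V := by
    have hkill : (⨅ ψ : F, LinearMap.ker (ψ.1 : X →ₗ[ℝ] ℝ)) ≤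
        LinearMap.ker (φ : X →ₗ[ℝ] ℝ) := by
      intro x hx
      have : (Submodule.Quotient.mk x : X ⧸ K) = 0 := (Submodule.Quotient.mk_eq_zero K).2 hx
      simp [hφ, this]
    have hm := mem_span_of_iInf_ker_le_ker hkill
    rw [Finsupp.mem_span_range_iff_exists_finsupp] at hm
    obtain ⟨c, hc⟩ := hm
    have : φ = c.sum fun ψ a => a • ψ.1 := by
      ext x
      have h1 := congrArg (fun L : X →ₗ[ℝ] ℝ => L x) hc
      simp only [Finsupp.sum, LinearMap.sum_apply, LinearMap.smul_apply,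
        ContinuousLinearMap.coe_coe] at h1 ⊢
      simp only [sum_apply, smul_apply]
      exact h1.symm
    rw [this]
    exact Submodule.sum_mem _ fun ψ _ => Submodule.smul_mem _ _ (Submodule.subset_span ψ.2)
  have hmem : (⟨φ, hφV⟩ : V) ∈ Metric.closedBall (0 : V) 1 := by
    simp only [Metric.mem_closedBall, Subtype.dist_eq, ZeroMemClass.coe_zero, dist_zero_right]
    exact hφ1
  obtain ⟨ψ, hψ, hdist⟩ := mem_iUnion₂.1 (hT hmem)
  have hd : ‖φ - (ψ : StrongDual ℝ X)‖ < ρ := by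
    have h0 : dist (⟨φ, hφV⟩ : V) ψ < ρ := hdist
    rwa [Subtype.dist_eq, dist_eq_norm] at h0
  have hval : φ (h i) = ‖(Submodule.Quotient.mk (h i) : X ⧸ K)‖ := by
    simpa [hφ] using hg2
  have h1 : φ (h i) ≤ C + η / 2 := by
    have h2 := (φ - (ψ : StrongDual ℝ X)).le_opNorm (h i)
    rw [sub_apply, Real.norm_eq_abs] at h2
    have h3 : ‖φ - (ψ : StrongDual ℝ X)‖ * ‖h i‖ ≤ ρ * (|r| + 1) :=
      mul_le_mul hd.le (hri.trans (by linarith [le_abs_self r])) (norm_nonneg _) hρ0.le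
    have h4 : ρ * (|r| + 1) = η / 2 := by rw [hρ]; field_simp
    linarith [(abs_le.1 (hi ψ hψ)).2, (abs_le.1 h2).2]
  obtain ⟨m, hm, hlt⟩ : ∃ m : X, (Submodule.Quotient.mk m : X ⧸ K) = Submodule.Quotient.mk (h i) ∧
      ‖m‖ < ‖(Submodule.Quotient.mk (h i) : X ⧸ K)‖ + η / 2 :=
    Submodule.Quotient.norm_mk_lt _ (half_pos hη)
  refine ⟨h i - m, fun ψ hψ => ?_, by rw [sub_sub_cancel]; linarith⟩
  have hmK : h i - m ∈ K := (Submodule.Quotient.eq K).1 hm.symm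
  exact (Submodule.mem_iInf _).1 hmK ⟨ψ, hψ⟩

/-! ### Families -/

section families

variable {ι : Type*} (l : Filter ι)

/-- Eventually in the scale and then eventually in the family index. -/
def Ev (P : ℕ → ι → Prop) : Prop := ∀ᶠ k in atTop, ∀ᶠ i in l, P k i

/-- Weakly of order `M`. -/
def Wk (M : ℕ → ℝ) (h : ℕ → ι → X) : Prop :=
  ∃ C : ℝ, 0 ≤ C ∧ ∀ᶠ k in atTop, ∀ φ : StrongDual ℝ X, ‖φ‖ ≤ 1 →
    ∀ᶠ i in l, |φ (h k i)| ≤ C * M k

/-- Negligible in norm against `s`. -/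
def Small (s : ℕ → ℝ) (h : ℕ → ι → X) : Prop :=
  ∀ η : ℝ, 0 < η → Ev l fun k i => ‖h k i‖ ≤ η * s k

variable {l} {M s : ℕ → ℝ} {h h' : ℕ → ι → X}

theorem Ev.and {P Q : ℕ → ι → Prop} (hP : Ev l P) (hQ : Ev l Q) :
    Ev l fun k i => P k i ∧ Q k i := by
  filter_upwards [hP, hQ] with k h1 h2 using h1.and h2

theorem Ev.mono {P Q : ℕ → ι → Prop} (hP : Ev l P) (hPQ : ∀ k i, P k i → Q k i) : Ev l Q :=
  Filter.Eventually.mono hP fun _ hk => hk.mono fun i hi => hPQ _ i hi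

theorem Wk.add (h1 : Wk l M h) (h2 : Wk l M h') : Wk l M fun k i => h k i + h' k i := by
  obtain ⟨C, hC, h1⟩ := h1
  obtain ⟨D, hD, h2⟩ := h2
  refine ⟨C + D, add_nonneg hC hD, ?_⟩
  filter_upwards [h1, h2] with k k1 k2 φ hφ
  filter_upwards [k1 φ hφ, k2 φ hφ] with i i1 i2
  rw [map_add, add_mul]
  exact (abs_add_le _ _).trans (add_le_add i1 i2)

theorem Wk.smul (h1 : Wk l M h) (c : ℝ) : Wk l M fun k i => c • h k i := by
  obtain ⟨C, hC, h1⟩ := h1
  refine ⟨|c| * C, by positivity, ?_⟩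
  filter_upwards [h1] with k k1 φ hφ
  filter_upwards [k1 φ hφ] with i i1
  rw [map_smul, smul_eq_mul, abs_mul, mul_assoc]
  exact mul_le_mul_of_nonneg_left i1 (abs_nonneg c)

theorem Wk.congr (h1 : Wk l M h) (he : Ev l fun k i => h k i = h' k i) : Wk l M h' := by
  obtain ⟨C, hC, h1⟩ := h1
  refine ⟨C, hC, ?_⟩
  filter_upwards [h1, he] with k k1 k2 φ hφ
  filter_upwards [k1 φ hφ, k2] with i i1 i2
  rwa [← i2]

theorem Wk.of_norm {C : ℝ} (hC : 0 ≤ C) (he : Ev l fun k i => ‖h k i‖ ≤ C * M k) : Wk l M h := by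
  refine ⟨C, hC, ?_⟩
  filter_upwards [he] with k hk φ hφ
  filter_upwards [hk] with i hi
  exact (abs_le_norm_of hφ _).trans hi

theorem Small.add (h1 : Small l s h) (h2 : Small l s h') :
    Small l s fun k i => h k i + h' k i := fun η hη =>
  ((h1 _ (half_pos hη)).and (h2 _ (half_pos hη))).mono fun k i ⟨a, b⟩ => by
    have := norm_add_le (h k i) (h' k i); linarith

theorem Small.smul (h1 : Small l s h) (c : ℝ) : Small l s fun k i => c • h k i := fun η hη =>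
  (h1 (η / (|c| + 1)) (by positivity)).mono fun k i hi => by
    rw [norm_smul, Real.norm_eq_abs]
    have := mul_le_mul_of_nonneg_left hi (abs_nonneg c)
    refine this.trans ?_
    rw [← mul_assoc]
    have hb : 0 ≤ η / (|c| + 1) * s k := (norm_nonneg _).trans hi
    have e : η * s k = (|c| + 1) * (η / (|c| + 1) * s k) := by field_simp
    rw [e, mul_assoc]
    exact mul_le_mul_of_nonneg_right (by linarith) hb

theorem Small.congr (h1 : Small l s h) (he : Ev l fun k i => h k i = h' k i) : Small l s h' :=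
  fun η hη => ((h1 η hη).and he).mono fun _ _ ⟨a, b⟩ => b ▸ a

end families

/-- A scale at which the asymptotic modulus of `X` is controlled by `M`. -/
def Bounded (X : Type*) [NormedAddCommGroup X] [NormedSpace ℝ X] (s M : ℕ → ℝ) (L K : ℝ) : Prop :=
  ∀ᶠ k in atTop, ∀ v : X, ‖v‖ = 1 →
    ∃ F : Finset (StrongDual ℝ X), ∀ a, ‖a‖ ≤ L * s k → Kills F a → sgap v a ≤ K * M k

/-- Scales `s → 0` with moduli `M = o(s)`. -/
structure Scales (s M : ℕ → ℝ) : Prop where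
  s_pos : ∀ k, 0 < s k
  M_pos : ∀ k, 0 < M k
  lim : Tendsto s atTop (𝓝 0)
  small : ∀ η : ℝ, 0 < η → ∀ᶠ k in atTop, M k ≤ η * s k

variable {ι : Type*} {l : Filter ι} {s M : ℕ → ℝ} {L K : ℝ}

theorem Scales.eventually_lt (hs : Scales s M) (c : ℝ) {δ : ℝ} (hδ : 0 < δ) :
    ∀ᶠ k in atTop, c * s k < δ := by
  have := hs.lim.const_mul c
  rw [mul_zero] at this
  exact this.eventually (eventually_lt_nhds hδ)

/-- Weakly small bounded families have excess of order `M`, with a constant independent of the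
family. -/
theorem Bounded.sgap_le (hb : Bounded X s M L K) (hK : 0 ≤ K) (hX : Round X) (hs : Scales s M)
    {h : ℕ → ι → X} {r δ : ℝ} (hr0 : 0 ≤ r) (hδ : 0 < δ) (hrL : (r + 1) / δ ≤ L) (hw : Wk l M h)
    (hr : Ev l fun k i => ‖h k i‖ ≤ r * s k) :
    ∀ᶠ k in atTop, ∀ v : X, δ ≤ ‖v‖ → ‖v‖ ≤ 3 →
      ∀ᶠ i in l, sgap v (h k i) ≤ (3 * K + 1) * M k := by
  obtain ⟨C, hC, hw⟩ := hw
  obtain ⟨d, hd, hlip⟩ := hX.sgap_lip (1 / (C + 1)) (by positivity)
  filter_upwards [hb, hw, hr, hs.small (1 / (C + 1)) (by positivity),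
    hs.eventually_lt (r + 1) (mul_pos hd hδ)] with k kb kw kr ksm klt v hv1 hv2
  have hv0 : v ≠ 0 := norm_pos_iff.1 (hδ.trans_le hv1)
  obtain ⟨F, hF⟩ := kb (unit v) (norm_unit hv0)
  have hM := hs.M_pos k
  have hsk := hs.s_pos k
  filter_upwards [near_kills F (h k) hM kw kr, kr] with i ⟨w, hwF, hwn⟩ hri
  have hCM : C * M k + M k ≤ s k := by
    have := mul_le_mul_of_nonneg_left ksm (show 0 ≤ C + 1 by linarith)
    rw [← mul_assoc, mul_one_div_cancel (show C + 1 ≠ 0 by linarith), one_mul] at this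
    linarith
  have hwle : ‖w‖ ≤ (r + 1) * s k := by
    have := norm_le_insert (h k i) w
    linarith
  have hdv : d * δ ≤ d * ‖v‖ := mul_le_mul_of_nonneg_left hv1 hd.le
  have h1 := hlip v (h k i) w hv0 (by linarith) (by linarith)
  have hvp : 0 < ‖v‖ := hδ.trans_le hv1
  have h2 := hF (‖v‖⁻¹ • w) (by
      rw [norm_smul, norm_inv, norm_norm, inv_mul_le_iff₀ hvp]
      have h3 : (r + 1) ≤ L * ‖v‖ := by
        rw [div_le_iff₀ hδ] at hrL
        refine hrL.trans (mul_le_mul_of_nonneg_left hv1 ?_)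
        by_contra hL
        have := mul_nonpos_of_nonpos_of_nonneg (not_le.1 hL).le hδ.le
        linarith
      have := mul_le_mul_of_nonneg_right h3 hsk.le
      linarith)
    (fun φ hφ => by rw [map_smul, hwF φ hφ, smul_zero])
  rw [show unit v = ‖v‖⁻¹ • v from rfl, hX.sgap_scale hv0 (inv_pos.2 hvp),
    inv_mul_le_iff₀ hvp] at h2
  have h3 : 1 / (C + 1) * ‖h k i - w‖ ≤ M k := by
    refine (mul_le_mul_of_nonneg_left hwn (by positivity)).trans (le_of_eq ?_)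
    field_simp
  have h4 : ‖v‖ * (K * M k) ≤ 3 * (K * M k) :=
    mul_le_mul_of_nonneg_right hv2 (mul_nonneg hK hM.le)
  linarith

/-- Weakly small families that are negligible in norm have negligible excess. -/
theorem Bounded.sgap_negl (hb : Bounded X s M L K) (hK : 0 ≤ K) (hX : Round X) (hs : Scales s M)
    {q : ℕ → ι → X} {δ : ℝ} (hδ : 0 < δ) (hL : 2 / δ ≤ L) (hw : Wk l M q) (hq : Small l s q)
    {η : ℝ} (hη : 0 < η) :
    ∀ᶠ k in atTop, ∀ v : X, δ ≤ ‖v‖ → ‖v‖ ≤ 3 → ∀ᶠ i in l, sgap v (q k i) ≤ η * M k := by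
  set t := min 1 (η / (3 * K + 1)) with ht
  have ht0 : 0 < t := lt_min one_pos (by positivity)
  have ht1 : t ≤ 1 := min_le_left _ _
  have h1 : Ev l fun k i => ‖t⁻¹ • q k i‖ ≤ 1 * s k := (hq t ht0).mono fun k i hi => by
    rw [norm_smul, norm_inv, Real.norm_of_nonneg ht0.le, one_mul, inv_mul_le_iff₀ ht0]
    exact hi
  filter_upwards [hb.sgap_le hK hX hs zero_le_one hδ (by norm_num; exact hL) (hw.smul t⁻¹) h1]
    with k hk v hv1 hv2
  filter_upwards [hk v hv1 hv2] with i hi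
  have := sgap_smul_le v (t⁻¹ • q k i) ht0.le ht1
  rw [smul_inv_smul₀ ht0.ne'] at this
  refine this.trans ((mul_le_mul_of_nonneg_left hi ht0.le).trans ?_)
  rw [← mul_assoc]
  refine mul_le_mul_of_nonneg_right ?_ (hs.M_pos k).le
  calc t * (3 * K + 1) ≤ η / (3 * K + 1) * (3 * K + 1) :=
        mul_le_mul_of_nonneg_right (min_le_right _ _) (by positivity)
    _ = η := div_mul_cancel₀ _ (by positivity)

/-- Negligible perturbations change the excess negligibly. -/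
theorem Bounded.gap_perturb (hb : Bounded X s M L K) (hK : 0 ≤ K) (hX : Round X) (hs : Scales s M)
    {h q : ℕ → ι → X} {δ : ℝ} (hδ : 0 < δ) (hL : 8 / δ ≤ L) (hwh : Wk l M h) (hwq : Wk l M q)
    (hh : Ev l fun k i => ‖h k i‖ ≤ 2 * s k) (hq : Small l s q) {η : ℝ} (hη : 0 < η) :
    ∀ᶠ k in atTop, ∀ v : X, δ ≤ ‖v‖ → ‖v‖ ≤ 3 →
      ∀ᶠ i in l, |gap v (h k i + q k i) - gap v (h k i)| ≤ η * M k := by
  set t := min (1 / 2) (η / (4 * (3 * K + 1))) with ht
  have ht0 : 0 < t := lt_min (by norm_num) (by positivity)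
  have ht2 : t ≤ 1 / 2 := min_le_left _ _
  have htK : t * (3 * K + 1) ≤ η / 4 := by
    calc t * (3 * K + 1) ≤ η / (4 * (3 * K + 1)) * (3 * K + 1) :=
          mul_le_mul_of_nonneg_right (min_le_right _ _) (by positivity)
      _ = η / 4 := by field_simp
  have hL2 : 2 / δ ≤ L := le_trans (by gcongr; norm_num) hL
  have key : ∀ (h q : ℕ → ι → X), Wk l M h → Wk l M q → (Ev l fun k i => ‖h k i‖ ≤ 3 * s k) →
      Small l s q → ∀ᶠ k in atTop, ∀ v : X, δ ≤ ‖v‖ → ‖v‖ ≤ 3 →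
        ∀ᶠ i in l, gap v (h k i + q k i) - gap v (h k i) ≤ η * M k := by
    intro h q hwh hwq hh hq
    have h2 : Ev l fun k i => ‖(2 : ℝ) • h k i‖ ≤ 7 * s k := hh.mono fun k i hi => by
      rw [norm_smul, Real.norm_two]
      have := hs.s_pos k
      linarith
    filter_upwards [hb.sgap_le hK hX hs (by norm_num : (0 : ℝ) ≤ 7) hδ (by norm_num; exact hL)
      (hwh.smul 2) h2,
      hb.sgap_negl hK hX hs hδ hL2 (hwq.smul t⁻¹) (hq.smul t⁻¹) (half_pos hη)] with k k1 k2 v hv1 hv2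
    filter_upwards [k1 v hv1 hv2, k2 v hv1 hv2] with i i1 i2
    have hl0 : 0 ≤ t / (1 - t) := div_nonneg ht0.le (by linarith)
    have hl1 : t / (1 - t) ≤ 1 := by rw [div_le_one (by linarith)]; linarith
    have e1 : (1 - t / (1 - t)) • h k i + (t / (1 - t)) • ((2 : ℝ) • h k i)
        = (1 - t)⁻¹ • h k i := by
      rw [smul_smul, ← add_smul]
      congr 1
      have : (1 : ℝ) - t ≠ 0 := by linarith
      field_simp
      ring
    have e2 : (1 - t) • ((1 - t)⁻¹ • h k i) + t • (t⁻¹ • q k i) = h k i + q k i := by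
      rw [smul_inv_smul₀ (by linarith), smul_inv_smul₀ ht0.ne']
    have g1 := gap_convex v (h k i) ((2 : ℝ) • h k i) hl0 hl1
    rw [e1] at g1
    have g2 := gap_convex v ((1 - t)⁻¹ • h k i) (t⁻¹ • q k i) ht0.le (by linarith)
    rw [e2] at g2
    have g3 : (1 - t) * gap v ((1 - t)⁻¹ • h k i) ≤
        (1 - t) * ((1 - t / (1 - t)) * gap v (h k i)) + t * gap v ((2 : ℝ) • h k i) := by
      refine (mul_le_mul_of_nonneg_left g1 (by linarith)).trans (le_of_eq ?_)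
      have : (1 : ℝ) - t ≠ 0 := by linarith
      field_simp
    have g4 : (1 - t) * ((1 - t / (1 - t)) * gap v (h k i)) ≤ gap v (h k i) := by
      rw [← mul_assoc]
      refine mul_le_of_le_one_left (gap_nonneg _ _) ?_
      have : (1 : ℝ) - t ≠ 0 := by linarith
      field_simp
      linarith
    have g5 : t * gap v ((2 : ℝ) • h k i) ≤ η / 4 * M k := by
      refine (mul_le_mul_of_nonneg_left ((gap_le_sgap _ _).trans i1) ht0.le).trans ?_
      rw [← mul_assoc]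
      exact mul_le_mul_of_nonneg_right htK (hs.M_pos k).le
    have g6 : t * gap v (t⁻¹ • q k i) ≤ η / 2 * M k :=
      (mul_le_of_le_one_left (gap_nonneg _ _) (by linarith)).trans ((gap_le_sgap _ _).trans i2)
    have := mul_nonneg hη.le (hs.M_pos k).le
    linarith
  have hh3 : Ev l fun k i => ‖h k i‖ ≤ 3 * s k := hh.mono fun k i hi => by
    have := hs.s_pos k; linarith
  have hhq3 : Ev l fun k i => ‖h k i + q k i‖ ≤ 3 * s k :=
    (hh.and (hq 1 one_pos)).mono fun k i ⟨a, b⟩ => by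
      have := norm_add_le (h k i) (q k i); linarith
  filter_upwards [key h q hwh hwq hh3 hq,
    key (fun k i => h k i + q k i) (fun k i => (-1 : ℝ) • q k i) (hwh.add hwq) (hwq.smul (-1))
      hhq3 (hq.smul (-1))] with k k1 k2 v hv1 hv2
  filter_upwards [k1 v hv1 hv2, k2 v hv1 hv2] with i i1 i2
  rw [neg_one_smul, add_neg_cancel_right] at i2
  exact abs_le.2 ⟨by linarith, i1⟩

end Vale.Agent.P084.Inf
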