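import Mathlib
import Vale.Agent.P084.Inf.Asymp

/-!
Isometries of unit spheres and elementary consequences of rotundity.
-/

open Set Filter
open scoped Topology

namespace Vale.Agent.P084.Inf

variable {X Y : Type*} [NormedAddCommGroup X] [NormedSpace ℝ X] [NormedAddCommGroup Y]
  [NormedSpace ℝ Y]

/-- An odd isometry of unit spheres with its inverse. -/
structure SphEquiv (f : X → Y) (g : Y → X) : Prop where
  map : ∀ x, ‖x‖ = 1 → ‖f x‖ = 1
  map' : ∀ y, ‖y‖ = 1 → ‖g y‖ = 1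
  left : ∀ x, ‖x‖ = 1 → g (f x) = x
  right : ∀ y, ‖y‖ = 1 → f (g y) = y
  iso : ∀ x y, ‖x‖ = 1 → ‖y‖ = 1 → ‖f x - f y‖ = ‖x - y‖
  odd : ∀ x, ‖x‖ = 1 → f (-x) = -f x

namespace SphEquiv

variable {f : X → Y} {g : Y → X}

theorem symm (h : SphEquiv f g) : SphEquiv g f where
  map := h.map'
  map' := h.map
  left := h.right
  right := h.left
  iso a b ha hb := by
    rw [← h.iso _ _ (h.map' a ha) (h.map' b hb), h.right a ha, h.right b hb]
  odd y hy := by
    have e := h.odd (g y) (h.map' y hy)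
    rw [h.right y hy] at e
    rw [← e, h.left _ (by rw [norm_neg]; exact h.map' y hy)]

theorem iso_add (h : SphEquiv f g) {a b : X} (ha : ‖a‖ = 1) (hb : ‖b‖ = 1) :
    ‖f a + f b‖ = ‖a + b‖ := by
  have := h.iso a (-b) ha (by rwa [norm_neg])
  rwa [h.odd b hb, sub_neg_eq_add, sub_neg_eq_add] at this

theorem rotund (h : SphEquiv f g) (hX : Rotund X) : Rotund Y := fun ε hε => by
  obtain ⟨δ, hδ, hb⟩ := hX ε hε
  refine ⟨δ, hδ, fun a b ha hb' hab => ?_⟩
  rw [← h.symm.iso_add ha hb']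
  exact hb _ _ (h.map' a ha) (h.map' b hb') (by rwa [h.symm.iso a b ha hb'])

theorem round (h : SphEquiv f g) (hX : Round X) : Round Y := fun ε hε => by
  obtain ⟨δ, hδ, hb⟩ := hX ε hε
  refine ⟨δ, hδ, fun a b ha hb' hab => ?_⟩
  have := hb _ _ (h.map' a ha) (h.map' b hb') (by rwa [h.symm.iso a b ha hb'])
  rwa [h.symm.iso a b ha hb', h.symm.iso_add ha hb'] at this

end SphEquiv

theorem Rotund.eq_neg (hX : Rotund X) {a b : X} (ha : ‖a‖ = 1) (hb : ‖b‖ = 1)
    (h : ‖a - b‖ = 2) : b = -a := by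
  by_contra hne
  have hp : 0 < ‖a - -b‖ := norm_pos_iff.2 (sub_ne_zero.2 fun e => hne (by rw [e, neg_neg]))
  obtain ⟨δ, hδ, hc⟩ := hX _ hp
  have := hc a (-b) ha (by rwa [norm_neg]) le_rfl
  rw [← sub_eq_add_neg, h] at this
  linarith

/-- Two short vectors that are far apart are nearly opposite. -/
theorem Rotund.opposite (hX : Rotund X) {η : ℝ} (hη : 0 < η) : ∃ θ, 0 < θ ∧
    ∀ (p q : X) (A S : ℝ), 0 ≤ A → A ≤ 2 * S → ‖p‖ ≤ A + θ * S → ‖q‖ ≤ A + θ * S →
      2 * A ≤ ‖p - q‖ → ‖p + q‖ ≤ η * S := by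
  haveI : UniformConvexSpace X := ⟨fun ε hε => by
    obtain ⟨δ, hδ, hc⟩ := hX ε hε
    exact ⟨δ, hδ, fun x hx y hy hxy => hc x y hx hy hxy⟩⟩
  obtain ⟨δ, hδ, hball⟩ := exists_forall_closed_ball_dist_add_le_two_sub X
    (show (0 : ℝ) < η / 4 by positivity)
  set θ := min 1 (δ * η / 16) with hθ
  have hθ0 : 0 < θ := lt_min one_pos (by positivity)
  refine ⟨θ, hθ0, fun p q A S hA hAS hp hq hpq => ?_⟩
  have hS : 0 ≤ S := by linarith
  set R := max ‖p‖ ‖q‖ with hR
  have hR0 : 0 ≤ R := le_max_of_le_left (norm_nonneg p)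
  rcases le_or_gt R (η * S / 2) with hs | hs
  · have := norm_add_le p q
    linarith [le_max_left ‖p‖ ‖q‖, le_max_right ‖p‖ ‖q‖]
  have hRp : 0 < R := lt_of_le_of_lt (by positivity) hs
  have hRle : R ≤ A + θ * S := max_le hp hq
  have hR3 : R ≤ 3 * S := by
    have := mul_le_mul_of_nonneg_right (min_le_left 1 (δ * η / 16)) hS
    rw [← hθ] at this
    linarith
  by_contra hgt
  have hn : ∀ z : X, ‖z‖ ≤ R → ‖R⁻¹ • z‖ ≤ 1 := fun z hz => by
    rw [norm_smul, norm_inv, Real.norm_of_nonneg hR0, inv_mul_le_iff₀ hRp, mul_one]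
    exact hz
  have hc := hball (hn p (le_max_left _ _)) (hn (-q) (by rw [norm_neg]; exact le_max_right _ _))
    (by
      rw [← smul_sub, norm_smul, norm_inv, Real.norm_of_nonneg hR0, le_inv_mul_iff₀ hRp,
        sub_neg_eq_add]
      have := mul_le_mul_of_nonneg_right hR3 (show 0 ≤ η / 4 by positivity)
      have : 0 ≤ η * S := by positivity
      linarith [not_le.1 hgt])
  rw [← smul_add, norm_smul, norm_inv, Real.norm_of_nonneg hR0, inv_mul_le_iff₀ hRp,
    ← sub_eq_add_neg] at hc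
  have h1 : δ * R ≤ 2 * (θ * S) := by linarith
  have h2 : δ * (η * S / 2) < δ * R := mul_lt_mul_of_pos_left hs hδ
  have h3 : θ * S ≤ δ * η / 16 * S := mul_le_mul_of_nonneg_right (min_le_right _ _) hS
  have : 0 ≤ δ * η * S := by positivity
  linarith

end Vale.Agent.P084.Inf
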