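import Mathlib
import Vale.Agent.P084.Inf.Sph

/-!
Admissible families, transfers along parallel chords and the telescoping bound.
-/

open Set Filter
open scoped Topology

namespace Vale.Agent.P084.Inf

variable {X Y : Type*} [NormedAddCommGroup X] [NormedSpace ℝ X] [NormedAddCommGroup Y]
  [NormedSpace ℝ Y] {ι : Type*} {l : Filter ι}

/-- A pair of families of points near `x`, asymptotically tangent and nearly symmetric. -/
structure Adm (l : Filter ι) (s M : ℕ → ℝ) (x : ℕ → X) (P Q : ℕ → ι → X) : Prop where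
  unit : Ev l fun k i => ‖P k i‖ = 1 ∧ ‖Q k i‖ = 1
  half : ∀ η : ℝ, 0 < η → Ev l fun k i => ‖(1 / 2 : ℝ) • (P k i - Q k i)‖ ≤ (1 + η) * s k
  small : Small l s fun k i => P k i + Q k i - (2 : ℝ) • x k
  wa : Wk l M fun k i => (1 / 2 : ℝ) • (P k i - Q k i)
  ws : Wk l M fun k i => P k i + Q k i - (2 : ℝ) • x k

/-- The standing data. -/
structure Ctx (f : X → Y) (g : Y → X) (s M : ℕ → ℝ) (L K δ : ℝ) : Prop where
  sph : SphEquiv f g
  roundX : Round X
  roundY : Round Y
  rotX : Rotund X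
  rotY : Rotund Y
  sc : Scales s M
  bX : Bounded X s M L K
  bY : Bounded Y s M L K
  K_nonneg : 0 ≤ K
  δ_pos : 0 < δ
  δ_le : δ ≤ 1
  L_big : 8 / δ ≤ L
  chordX : ∀ x v : X, ‖x‖ = 1 → ‖v‖ = 1 → 1 / 4 ≤ J x v → ‖x - δ • v‖ < 1
  chordY : ∀ x v : Y, ‖x‖ = 1 → ‖v‖ = 1 → 1 / 4 ≤ J x v → ‖x - δ • v‖ < 1

variable {f : X → Y} {g : Y → X} {s M : ℕ → ℝ} {L K δ : ℝ}

theorem Ctx.symm (c : Ctx f g s M L K δ) : Ctx g f s M L K δ :=
  ⟨c.sph.symm, c.roundY, c.roundX, c.rotY, c.rotX, c.sc, c.bY, c.bX, c.K_nonneg, c.δ_pos, c.δ_le,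
    c.L_big, c.chordY, c.chordX⟩

/-- The difference of the linear functionals on the symmetrised displacement. -/
noncomputable def sval (f : X → Y) (x p q w : X) (w' : Y) : ℝ :=
  J w' (f p + f q - (2 : ℝ) • f x) - J w (p + q - (2 : ℝ) • x)

/-- The summed excess of two displacements. -/
noncomputable def psum (x p q w : X) : ℝ := gap w (p - x) + gap w (q - x)

theorem psum_nonneg (x p q w : X) : 0 ≤ psum x p q w :=
  add_nonneg (gap_nonneg _ _) (gap_nonneg _ _)

namespace Adm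

variable {x : ℕ → X} {P Q : ℕ → ι → X}

theorem swap (h : Adm l s M x P Q) : Adm l s M x Q P where
  unit := h.unit.mono fun _ _ ⟨a, b⟩ => ⟨b, a⟩
  half η hη := (h.half η hη).mono fun k i hi => by
    rwa [← neg_sub (P k i) (Q k i), smul_neg, norm_neg]
  small := h.small.congr (Eventually.of_forall fun k => Eventually.of_forall fun i => by
    simp only [add_comm (P k i)])
  wa := (h.wa.smul (-1)).congr (Eventually.of_forall fun k => Eventually.of_forall fun i => by
    module)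
  ws := h.ws.congr (Eventually.of_forall fun k => Eventually.of_forall fun i => by
    simp only [add_comm (P k i)])

theorem wk_disp (h : Adm l s M x P Q) : Wk l M fun k i => P k i - x k :=
  (h.wa.add (h.ws.smul (1 / 2))).congr (Eventually.of_forall fun k => Eventually.of_forall fun i => by
    module)

theorem norm_disp (h : Adm l s M x P Q) (hs : ∀ k, 0 < s k) :
    Ev l fun k i => ‖P k i - x k‖ ≤ 3 / 2 * s k :=
  ((h.half (1 / 4) (by norm_num)).and (h.small (1 / 2) (by norm_num))).mono fun k i ⟨a, b⟩ => by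
    have e : P k i - x k = (1 / 2 : ℝ) • (P k i - Q k i)
        + (1 / 2 : ℝ) • (P k i + Q k i - (2 : ℝ) • x k) := by module
    rw [e]
    refine (norm_add_le _ _).trans ?_
    rw [norm_smul (1 / 2 : ℝ) (P k i + Q k i - (2 : ℝ) • x k), Real.norm_of_nonneg (by norm_num)]
    have := hs k
    linarith

theorem psum_le (c : Ctx f g s M L K δ) (h : Adm l s M x P Q) :
    ∀ᶠ k in atTop, ∀ v : X, δ ≤ ‖v‖ → ‖v‖ ≤ 3 →
      ∀ᶠ i in l, psum (x k) (P k i) (Q k i) v ≤ 2 * (3 * K + 1) * M k := by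
  have hL : (3 / 2 + 1) / δ ≤ L := le_trans (div_le_div_of_nonneg_right (by norm_num) c.δ_pos.le) c.L_big
  filter_upwards [c.bX.sgap_le c.K_nonneg c.roundX c.sc (by norm_num) c.δ_pos hL h.wk_disp
      (h.norm_disp c.sc.s_pos),
    c.bX.sgap_le c.K_nonneg c.roundX c.sc (by norm_num) c.δ_pos hL h.swap.wk_disp
      (h.swap.norm_disp c.sc.s_pos)] with k k1 k2 v hv1 hv2
  filter_upwards [k1 v hv1 hv2, k2 v hv1 hv2] with i i1 i2
  have := gap_le_sgap v (P k i - x k)
  have := gap_le_sgap v (Q k i - x k)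
  simp only [psum]
  linarith

/-- Images of admissible families are admissible. -/
theorem image (c : Ctx f g s M L K δ) (hx : ∀ k, ‖x k‖ = 1) (h : Adm l s M x P Q) :
    Adm l s M (fun k => f (x k)) (fun k i => f (P k i)) (fun k i => f (Q k i)) := by
  have hhalf : ∀ η : ℝ, 0 < η →
      Ev l fun k i => ‖(1 / 2 : ℝ) • (f (P k i) - f (Q k i))‖ ≤ (1 + η) * s k := fun η hη =>
    ((h.half η hη).and h.unit).mono fun k i ⟨a, b⟩ => by
      rwa [norm_smul, c.sph.iso _ _ b.1 b.2, ← norm_smul]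
  have hsmall : Small l s fun k i => f (P k i) + f (Q k i) - (2 : ℝ) • f (x k) := by
    intro η hη
    obtain ⟨θ, hθ, hopp⟩ := c.rotY.opposite hη
    refine (((h.half 1 one_pos).and (h.small θ hθ)).and h.unit).mono
      fun k i ⟨⟨a, b⟩, hu1, hu2⟩ => ?_
    rw [norm_smul, Real.norm_of_nonneg (by norm_num : (0 : ℝ) ≤ 1 / 2)] at a
    beta_reduce
    have e : f (P k i) + f (Q k i) - (2 : ℝ) • f (x k)
        = (f (P k i) - f (x k)) + (f (Q k i) - f (x k)) := by module
    rw [e]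
    have hsθ : 0 ≤ θ * s k := mul_nonneg hθ.le (c.sc.s_pos k).le
    refine hopp _ _ (1 / 2 * ‖P k i - Q k i‖) (s k) (by positivity) (by linarith) ?_ ?_ ?_
    · rw [c.sph.iso _ _ hu1 (hx k)]
      have e2 : P k i - x k = (1 / 2 : ℝ) • (P k i - Q k i)
          + (1 / 2 : ℝ) • (P k i + Q k i - (2 : ℝ) • x k) := by module
      rw [e2]
      refine (norm_add_le _ _).trans ?_
      rw [norm_smul, norm_smul, Real.norm_of_nonneg (by norm_num : (0 : ℝ) ≤ 1 / 2)]
      linarith
    · rw [c.sph.iso _ _ hu2 (hx k)]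
      have e2 : Q k i - x k = (1 / 2 : ℝ) • (Q k i - P k i)
          + (1 / 2 : ℝ) • (P k i + Q k i - (2 : ℝ) • x k) := by module
      rw [e2]
      refine (norm_add_le _ _).trans ?_
      rw [norm_smul, norm_smul, Real.norm_of_nonneg (by norm_num : (0 : ℝ) ≤ 1 / 2),
        norm_sub_rev (Q k i)]
      linarith
    · rw [sub_sub_sub_cancel_right, c.sph.iso _ _ hu1 hu2]
      linarith
  obtain ⟨Ca, hCa, hwa⟩ := h.wa
  obtain ⟨Cs, hCs, hws⟩ := h.ws
  set K' := 2 * (3 * K + 1) with hK'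
  have hK'0 : 0 ≤ K' := by have := c.K_nonneg; positivity
  -- bounds for norming functionals of vectors with a margin
  have upper : ∀ᶠ k in atTop, ∀ v : Y, ‖v‖ = 1 → 1 / 4 ≤ J (f (x k)) v →
      ∀ᶠ i in l, J v (f (P k i) + f (Q k i) - (2 : ℝ) • f (x k)) ≤ (Cs + K') * M k ∧
        2 * |J v ((1 / 2 : ℝ) • (f (P k i) - f (Q k i)))|
          ≤ (2 * Ca + K' + (Cs + K')) * M k - J v (f (P k i) + f (Q k i) - (2 : ℝ) • f (x k)) := by
    filter_upwards [h.psum_le c, hwa, hws, h.unit] with k kp ka kS ku v hv hjv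
    have hfx := c.sph.map _ (hx k)
    have hcont : ContinuousOn (fun t : ℝ => ‖f (x k) - t • v‖) (Icc δ 3) := by fun_prop
    obtain ⟨t, ⟨ht1, ht2⟩, hte⟩ := intermediate_value_Icc (by linarith [c.δ_le]) hcont
      (show (1 : ℝ) ∈ Icc ‖f (x k) - δ • v‖ ‖f (x k) - (3 : ℝ) • v‖ from by
        refine ⟨(c.chordY _ _ hfx hv hjv).le, ?_⟩
        have := norm_sub_norm_le ((3 : ℝ) • v) (f (x k))
        rw [norm_sub_rev, norm_smul, hv, hfx, Real.norm_of_nonneg (by norm_num : (0 : ℝ) ≤ 3)] at this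
        linarith)
    have ht0 : 0 < t := c.δ_pos.trans_le ht1
    set R := g (f (x k) - t • v) with hR
    have hR1 : ‖R‖ = 1 := c.sph.map' _ hte
    have hfR : f R = f (x k) - t • v := c.sph.right _ hte
    set w := x k - R with hw
    have hwn : ‖w‖ = t := by
      rw [hw, ← c.sph.iso _ _ (hx k) hR1, hfR, sub_sub_cancel, norm_smul, hv, mul_one,
        Real.norm_of_nonneg ht0.le]
    have hJv : J (t • v) = J v :=
      c.roundY.J_smul (norm_pos_iff.1 (by rw [hv]; exact one_pos)) ht0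
    filter_upwards [kp w (by rw [hwn]; exact ht1) (by rw [hwn]; exact ht2),
      ka (J w) (norm_J w), kS (J w) (norm_J w), ku] with i ip ia iS ⟨hu1, hu2⟩
    have rel : ∀ z : X, ‖z‖ = 1 → gap (t • v) (f z - f (x k)) + J v (f z - f (x k))
        = gap w (z - x k) + J w (z - x k) := by
      intro z hz
      have e1 : f z - f R = t • v + (f z - f (x k)) := by rw [hfR]; abel
      have e2 : z - R = w + (z - x k) := by rw [hw]; abel
      have := c.sph.iso z R hz hR1
      rw [e1, e2] at this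
      simp only [gap, hJv, this, norm_smul, hv, hwn, Real.norm_of_nonneg ht0.le, mul_one]
      ring
    have r1 := rel _ hu1
    have r2 := rel _ hu2
    have g1 := gap_nonneg (t • v) (f (P k i) - f (x k))
    have g2 := gap_nonneg (t • v) (f (Q k i) - f (x k))
    have g3 := gap_nonneg w (P k i - x k)
    have g4 := gap_nonneg w (Q k i - x k)
    simp only [psum, map_sub, map_add, map_smul, smul_eq_mul] at ip ia iS r1 r2 ⊢
    have b1 := abs_le.1 ia
    have b2 := abs_le.1 iS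
    refine ⟨by linarith, ?_⟩
    rw [← le_div_iff₀' two_pos, abs_le]
    constructor <;> linarith
  -- weak smallness of the symmetrised displacement
  obtain ⟨d, hd, hlip⟩ := c.roundY.sgap_lip (1 / 8) (by norm_num)
  set C3 := 9 * (Cs + K') + 4 * (3 * K + 2) + 9 with hC3
  have hC30 : 0 ≤ C3 := by have := c.K_nonneg; positivity
  have hwsY : ∀ᶠ k in atTop, ∀ φ : StrongDual ℝ Y, ‖φ‖ ≤ 1 →
      ∀ᶠ i in l, |φ (f (P k i) + f (Q k i) - (2 : ℝ) • f (x k))| ≤ (2 * C3 + 2) * M k := by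
    filter_upwards [upper, h.unit, hws, hsmall (1 / 4) (by norm_num), c.bY,
      c.sc.small (1 / 4) (by norm_num), c.sc.eventually_lt 2 hd] with k ku kU kS kq kb ksm klt φ0 hφ0
    have hM := c.sc.M_pos k
    have hsk := c.sc.s_pos k
    set σ : ι → Y := fun i => f (P k i) + f (Q k i) - (2 : ℝ) • f (x k) with hσ
    have hfx := c.sph.map _ (hx k)
    set B : Set ℝ := {b | 0 ≤ b ∧ ∀ φ : StrongDual ℝ Y, ‖φ‖ ≤ 1 → ∀ᶠ i in l, |φ (σ i)| ≤ b}
      with hB
    have hmemB : 1 / 4 * s k ∈ B := ⟨by positivity, fun φ hφ => kq.mono fun i hi =>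
      (abs_le_norm_of hφ _).trans hi⟩
    haveI : Nontrivial Y := ⟨⟨f (x k), 0, fun e => by rw [e, norm_zero] at hfx; exact zero_ne_one hfx⟩⟩
    have improve : ∀ b ∈ B, b ≤ s k → C3 * M k + b / 2 ∈ B := by
      intro b hb hbs
      refine ⟨by have := hb.1; positivity, ?_⟩
      obtain ⟨F, hF⟩ := kb (f (x k)) hfx
      have hlow : ∀ᶠ i in l, -J (f (x k)) (σ i) ≤ (Cs + 3 * K + 2) * M k + b / 8 := by
        filter_upwards [near_kills F σ hM hb.2 kq, kS (J (x k)) (norm_J _), kU, kq]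
          with i ⟨w, hwF, hwn⟩ iS ⟨hu1, hu2⟩ iq
        have iq' : ‖σ i‖ ≤ 1 / 4 * s k := iq
        have e1 : (2 : ℝ) • f (x k) + σ i = f (P k i) + f (Q k i) := by rw [hσ]; module
        have e2 : P k i + Q k i = (2 : ℝ) • x k + (P k i + Q k i - (2 : ℝ) • x k) := by abel
        have h1 : 2 + J (x k) (P k i + Q k i - (2 : ℝ) • x k) ≤ ‖f (P k i) + f (Q k i)‖ := by
          rw [c.sph.iso_add hu1 hu2, e2]
          refine le_trans (le_of_eq ?_) (J_le (x k) _)
          rw [map_add, map_smul, J_self, hx k, smul_eq_mul, mul_one]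
          abel_nf
        have hJ2 : J ((2 : ℝ) • f (x k)) = J (f (x k)) :=
          c.roundY.J_smul (norm_pos_iff.1 (by rw [hfx]; exact one_pos)) two_pos
        have h2 : ‖f (P k i) + f (Q k i)‖ ≤ 2 + J (f (x k)) (σ i) + sgap ((2 : ℝ) • f (x k)) (σ i) := by
          have := gap_le_sgap ((2 : ℝ) • f (x k)) (σ i)
          simp only [gap, hJ2, e1, norm_smul, hfx, Real.norm_two, mul_one] at this
          linarith
        have hwle : ‖w‖ ≤ 2 * s k := by
          have := norm_le_insert (σ i) w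
          linarith
        have h2v : ‖(2 : ℝ) • f (x k)‖ = 2 := by rw [norm_smul, hfx, Real.norm_two, mul_one]
        have h3 := hlip ((2 : ℝ) • f (x k)) (σ i) w (norm_pos_iff.1 (by rw [h2v]; exact two_pos))
          (by rw [h2v]; linarith) (by rw [h2v]; linarith)
        have h4 : sgap ((2 : ℝ) • f (x k)) w ≤ 2 * (K * M k) := by
          have h5 := hF ((1 / 2 : ℝ) • w) (by
              rw [norm_smul, Real.norm_of_nonneg (by norm_num : (0 : ℝ) ≤ 1 / 2)]
              have hL8 : 8 ≤ L := le_trans (by rw [le_div_iff₀ c.δ_pos]; linarith [c.δ_le]) c.L_big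
              have := mul_le_mul_of_nonneg_right hL8 hsk.le
              linarith) (fun φ hφ => by rw [map_smul, hwF φ hφ, smul_zero])
          have h6 := c.roundY.sgap_scale (norm_pos_iff.1 (by rw [hfx]; exact one_pos)) two_pos
            ((1 / 2 : ℝ) • w) (v := f (x k))
          rw [smul_smul, show (2 : ℝ) * (1 / 2) = 1 by norm_num, one_smul] at h6
          rw [h6]
          linarith
        have b2 := abs_le.1 iS
        have := c.K_nonneg
        have := mul_nonneg c.K_nonneg hM.le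
        linarith
      have hone : ∀ φ : StrongDual ℝ Y, ‖φ‖ ≤ 1 →
          ∀ᶠ i in l, φ (σ i) ≤ C3 * M k + b / 2 := by
        intro φ hφ
        set j := J (f (x k)) with hj
        set ψ := φ + (4 : ℝ) • j with hψ
        have hψ3 : 3 ≤ ‖ψ‖ := by
          have h1 := ψ.le_opNorm (f (x k))
          rw [Real.norm_eq_abs, hfx, mul_one, hψ, add_apply, smul_apply, smul_eq_mul, hj, J_self,
            hfx] at h1
          have h2 := (abs_le.1 (abs_le_norm_of hφ (f (x k)))).1
          rw [hfx] at h2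
          rw [hψ, hj]
          linarith [le_abs_self (φ (f (x k)) + 4 * 1)]
        have hψ5 : ‖ψ‖ ≤ 5 := by
          refine (norm_add_le _ _).trans ?_
          rw [norm_smul, Real.norm_of_nonneg (by norm_num : (0 : ℝ) ≤ 4), hj]
          linarith [norm_J (f (x k))]
        have hθ : 0 < M k / s k := div_pos hM hsk
        obtain ⟨d1, hd1, hcl⟩ := c.roundY.J_close _ hθ
        obtain ⟨v, hv, hval⟩ := exists_near_norming ψ (lt_min (one_pos : (0 : ℝ) < 1) hd1)
        have hjv : 1 / 4 ≤ j v := by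
          have h2 := le_norm_of hφ v
          rw [hv] at h2
          rw [hψ, add_apply, smul_apply, smul_eq_mul] at hval
          have := min_le_left 1 d1
          rw [← hψ] at hval
          linarith
        have hclose : ‖(‖ψ‖⁻¹) • ψ - J v‖ ≤ M k / s k := hcl v _ hv
          (by rw [norm_smul, norm_inv, norm_norm]; exact inv_mul_le_one) (by
            rw [smul_apply, smul_eq_mul, le_inv_mul_iff₀ (by linarith)]
            have := min_le_right 1 d1
            have := mul_le_mul_of_nonneg_right hψ3 hd1.le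
            linarith)
        filter_upwards [ku v hv hjv, kq, hlow] with i ⟨iv, _⟩ iq il
        have iq' : ‖σ i‖ ≤ 1 / 4 * s k := iq
        have h1 := ((‖ψ‖⁻¹) • ψ - J v).le_opNorm (σ i)
        rw [sub_apply, smul_apply, smul_eq_mul, Real.norm_eq_abs] at h1
        have h2 : ‖(‖ψ‖⁻¹) • ψ - J v‖ * ‖σ i‖ ≤ M k := by
          refine (mul_le_mul hclose iq' (norm_nonneg _) hθ.le).trans ?_
          rw [div_mul_eq_mul_div, div_le_iff₀ hsk]
          linarith [mul_pos hM hsk]
        have h3 : ‖ψ‖⁻¹ * ψ (σ i) ≤ (Cs + K' + 1) * M k := by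
          have : J v (σ i) ≤ (Cs + K') * M k := iv
          linarith [(abs_le.1 h1).2]
        rw [inv_mul_le_iff₀ (by linarith)] at h3
        have h4 : ψ (σ i) ≤ 5 * ((Cs + K' + 1) * M k) :=
          h3.trans (mul_le_mul_of_nonneg_right hψ5 (by positivity))
        rw [hψ, add_apply, smul_apply, smul_eq_mul] at h4
        have := mul_nonneg hK'0 hM.le
        simp only [hC3]
        linarith
      intro φ hφ
      filter_upwards [hone φ hφ, hone (-φ) (by rwa [ContinuousLinearMap.opNorm_neg])] with i i1 i2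
      rw [ContinuousLinearMap.neg_apply] at i2
      exact abs_le.2 ⟨by linarith, i1⟩
    have hBne : B.Nonempty := ⟨_, hmemB⟩
    obtain ⟨b, hb, hblt⟩ := exists_lt_of_csInf_lt hBne (lt_add_of_pos_right (sInf B) hM)
    have hBb : BddBelow B := ⟨0, fun b hb => hb.1⟩
    have hb2 : b ≤ s k := by
      linarith [csInf_le hBb hmemB]
    have := csInf_le hBb (improve b hb hb2)
    filter_upwards [hb.2 φ0 hφ0] with i hi
    refine le_trans hi ?_
    linarith
  -- weak smallness of the half difference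
  have hwaY : Wk l M fun k i => (1 / 2 : ℝ) • (f (P k i) - f (Q k i)) := by
    refine ⟨9 * (2 * Ca + K' + (Cs + K') + (2 * C3 + 2) + 2), by positivity, ?_⟩
    filter_upwards [upper, hwsY, hhalf 1 one_pos] with k ku ks kh φ0 hφ0
    have hM := c.sc.M_pos k
    have hsk := c.sc.s_pos k
    have hfx := c.sph.map _ (hx k)
    haveI : Nontrivial Y := ⟨⟨f (x k), 0, fun e => by rw [e, norm_zero] at hfx; exact zero_ne_one hfx⟩⟩
    set D := (2 * Ca + K' + (Cs + K') + (2 * C3 + 2)) * M k with hD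
    have hD0 : 0 ≤ D := by positivity
    set a : ι → Y := fun i => (1 / 2 : ℝ) • (f (P k i) - f (Q k i)) with ha
    have base : ∀ v : Y, ‖v‖ = 1 → 1 / 4 ≤ J (f (x k)) v → ∀ᶠ i in l, |J v (a i)| ≤ D := by
      intro v hv hjv
      filter_upwards [ku v hv hjv, ks (J v) (norm_J v)] with i ⟨_, i1⟩ i2
      have := (abs_le.1 i2).1
      have h0 : 0 ≤ |J v (a i)| := abs_nonneg _
      simp only [ha] at h0 ⊢
      rw [hD]
      linarith
    set j := J (f (x k)) with hj
    set ψ := φ0 + (4 : ℝ) • j with hψ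
    have hψ3 : 3 ≤ ‖ψ‖ := by
      have h1 := ψ.le_opNorm (f (x k))
      rw [Real.norm_eq_abs, hfx, mul_one, hψ, add_apply, smul_apply, smul_eq_mul, hj, J_self,
        hfx] at h1
      have h2 := (abs_le.1 (abs_le_norm_of hφ0 (f (x k)))).1
      rw [hfx] at h2
      rw [hψ, hj]
      linarith [le_abs_self (φ0 (f (x k)) + 4 * 1)]
    have hψ5 : ‖ψ‖ ≤ 5 := by
      refine (norm_add_le _ _).trans ?_
      rw [norm_smul, Real.norm_of_nonneg (by norm_num : (0 : ℝ) ≤ 4), hj]
      linarith [norm_J (f (x k))]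
    have hθ : 0 < M k / s k := div_pos hM hsk
    obtain ⟨d1, hd1, hcl⟩ := c.roundY.J_close _ hθ
    obtain ⟨v, hv, hval⟩ := exists_near_norming ψ (lt_min (one_pos : (0 : ℝ) < 1) hd1)
    have hjv : 1 / 4 ≤ j v := by
      have h2 := le_norm_of hφ0 v
      rw [hv] at h2
      rw [hψ, add_apply, smul_apply, smul_eq_mul] at hval
      have := min_le_left 1 d1
      rw [← hψ] at hval
      linarith
    have hclose : ‖(‖ψ‖⁻¹) • ψ - J v‖ ≤ M k / s k := hcl v _ hv
      (by rw [norm_smul, norm_inv, norm_norm]; exact inv_mul_le_one) (by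
        rw [smul_apply, smul_eq_mul, le_inv_mul_iff₀ (by linarith)]
        have := min_le_right 1 d1
        have := mul_le_mul_of_nonneg_right hψ3 hd1.le
        linarith)
    filter_upwards [base v hv hjv,
      base (f (x k)) hfx (by rw [J_self, hfx]; norm_num), kh] with i i1 i2 i3
    have i3' : ‖a i‖ ≤ 2 * s k := i3.trans_eq (by norm_num)
    have h1 := ((‖ψ‖⁻¹) • ψ - J v).le_opNorm (a i)
    rw [sub_apply, smul_apply, smul_eq_mul, Real.norm_eq_abs] at h1
    have h2 : ‖(‖ψ‖⁻¹) • ψ - J v‖ * ‖a i‖ ≤ 2 * M k := by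
      refine (mul_le_mul hclose i3' (norm_nonneg _) hθ.le).trans (le_of_eq ?_)
      field_simp
    have h3 : ‖ψ‖⁻¹ * |ψ (a i)| ≤ D + 2 * M k := by
      rw [← abs_of_nonneg (inv_nonneg.2 (norm_nonneg ψ)), ← abs_mul]
      linarith [abs_sub_abs_le_abs_sub (‖ψ‖⁻¹ * ψ (a i)) (J v (a i))]
    rw [inv_mul_le_iff₀ (by linarith)] at h3
    have h4 : |ψ (a i)| ≤ 5 * (D + 2 * M k) :=
      h3.trans (mul_le_mul_of_nonneg_right hψ5 (by positivity))
    rw [hψ, add_apply, smul_apply, smul_eq_mul] at h4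
    have h5 : |φ0 (a i)| ≤ |φ0 (a i) + 4 * j (a i)| + 4 * |j (a i)| := by
      have := abs_sub_abs_le_abs_sub (φ0 (a i)) (-(4 * j (a i)))
      rw [sub_neg_eq_add, abs_neg, abs_mul, abs_of_nonneg (by norm_num : (0 : ℝ) ≤ 4)] at this
      linarith
    show |φ0 (a i)| ≤ _
    rw [hD] at i2 h4
    linarith
  exact ⟨h.unit.mono fun k i ⟨a, b⟩ => ⟨c.sph.map _ a, c.sph.map _ b⟩, hhalf, hsmall, hwaY,
    ⟨2 * C3 + 2, by positivity, hwsY⟩⟩

/-- One-point transfer along a line parallel to the chord. -/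
theorem transfer_one (c : Ctx f g s M L K δ) {y : ℕ → X} (hx : ∀ k, ‖x k‖ = 1)
    (hy : ∀ k, ‖y k‖ = 1) (hd : ∀ k, δ ≤ ‖x k - y k‖) (h : Adm l s M x P Q) :
    ∃ (P' : ℕ → ι → X) (C : ℝ), 0 ≤ C ∧ Ev l fun k i => ‖P' k i‖ = 1 ∧
      (∃ t : ℝ, 0 ≤ t ∧ P k i - P' k i = t • (x k - y k)) ∧
      ‖(P' k i - y k) - (P k i - x k)‖ ≤ C * M k := by
  obtain ⟨dc, hdc, hrot⟩ := c.rotX δ c.δ_pos
  set e := dc / 2 with he
  have he0 : 0 < e := half_pos hdc
  obtain ⟨dl, hdl, hlip⟩ := c.roundX.gap_lip (e / 10) (by positivity)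
  obtain ⟨Cw, hCw, hwk⟩ := h.wk_disp
  set C := 2 * (Cw + 3 * K + 1) / e with hC
  have hC0 : 0 ≤ C := by have := c.K_nonneg; positivity
  classical
  refine ⟨fun k i => if hh : ∃ τ : ℝ, |τ| ≤ C * M k ∧ 0 ≤ ‖x k - y k‖ + τ ∧
      ‖P k i - (‖x k - y k‖ + τ) • Inf.unit (x k - y k)‖ = 1
    then P k i - (‖x k - y k‖ + hh.choose) • Inf.unit (x k - y k) else 0, C, hC0, ?_⟩
  have hkey : Ev l fun k i => ∃ τ : ℝ, |τ| ≤ C * M k ∧ 0 ≤ ‖x k - y k‖ + τ ∧
      ‖P k i - (‖x k - y k‖ + τ) • Inf.unit (x k - y k)‖ = 1 := by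
    have hL2 : (3 / 2 + 1) / δ ≤ L :=
      le_trans (div_le_div_of_nonneg_right (by norm_num) c.δ_pos.le) c.L_big
    filter_upwards [c.bX.sgap_le c.K_nonneg c.roundX c.sc (by norm_num) c.δ_pos hL2 h.wk_disp
        (h.norm_disp c.sc.s_pos), hwk, h.norm_disp c.sc.s_pos,
      c.sc.eventually_lt 4 hdl, c.sc.eventually_lt 1 c.δ_pos,
      c.sc.small (e / (10 * (Cw + 1))) (by positivity)] with k kg kw kn klt kltd ksm
    have hM := c.sc.M_pos k
    have hsk := c.sc.s_pos k
    set d := ‖x k - y k‖ with hd'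
    have hd0 : 0 < d := c.δ_pos.trans_le (hd k)
    set u := Inf.unit (x k - y k) with hu
    have hxy0 : x k - y k ≠ 0 := norm_pos_iff.1 hd0
    have hu1 : ‖u‖ = 1 := norm_unit hxy0
    have hju : e ≤ -J (y k) u := by
      have h1 := hrot (y k) (x k) (hy k) (hx k) (by rw [norm_sub_rev]; exact hd k)
      have h2 := J_le (y k) (y k + x k)
      rw [map_add, J_self, hy] at h2
      have h3 : J (y k) u = d⁻¹ * (J (y k) (x k) - 1) := by
        rw [hu, Inf.unit, map_smul, map_sub, J_self, hy, smul_eq_mul]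
      have h4 : d ≤ 2 := (norm_sub_le _ _).trans (by rw [hx, hy]; norm_num)
      rw [h3, ← mul_neg, le_inv_mul_iff₀ hd0]
      have := mul_le_mul_of_nonneg_right h4 he0.le
      linarith
    filter_upwards [kg (y k) (by rw [hy]; exact c.δ_le) (by rw [hy]; norm_num),
      kw (J (y k)) (norm_J _), kn] with i ig iw inn
    set h0 := P k i - x k with hh0
    set F : ℝ → ℝ := fun τ => ‖P k i - (d + τ) • u‖ with hF
    have hFe : ∀ τ, F τ = 1 + J (y k) h0 - τ * J (y k) u + gap (y k) (h0 - τ • u) := by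
      intro τ
      have e1 : P k i - (d + τ) • u = y k + (h0 - τ • u) := by
        rw [add_smul, hu, Inf.unit, hd', smul_inv_smul₀ (by rwa [ne_eq, norm_eq_zero]), hh0]
        abel
      simp only [hF, e1, gap, map_sub, map_smul, smul_eq_mul, hy]
      ring
    have hlipτ : ∀ τ, |τ| ≤ s k → gap (y k) (h0 - τ • u) ≤ gap (y k) h0 + e / 10 * |τ| := by
      intro τ hτ
      have hn : ‖h0 - τ • u‖ ≤ 4 * s k := by
        refine (norm_sub_le _ _).trans ?_
        rw [norm_smul, hu1, mul_one, Real.norm_eq_abs]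
        linarith
      have := hlip (y k) (h0 - τ • u) h0 (norm_pos_iff.1 (by rw [hy]; exact one_pos))
        (by rw [hy]; linarith) (by rw [hy]; linarith)
      rw [sub_sub_cancel_left, norm_neg, norm_smul, hu1, mul_one, Real.norm_eq_abs] at this
      linarith
    have hsm : Cw * M k ≤ e / 10 * s k := by
      refine (mul_le_mul_of_nonneg_left ksm hCw).trans ?_
      rw [← mul_assoc]
      refine mul_le_mul_of_nonneg_right ?_ hsk.le
      rw [← mul_div_assoc, div_le_div_iff₀ (by positivity) (by norm_num)]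
      linarith
    have hg0 : gap (y k) h0 ≤ e / 5 * s k := by
      have := hlip (y k) h0 0 (norm_pos_iff.1 (by rw [hy]; exact one_pos))
        (by rw [hy]; linarith) (by rw [norm_zero, hy]; linarith)
      rw [gap_zero, sub_zero, sub_zero] at this
      refine this.trans ((mul_le_mul_of_nonneg_left inn (by positivity)).trans ?_)
      have := mul_nonneg he0.le hsk.le
      linarith
    have b := abs_le.1 iw
    have hneg : F (-(s k)) ≤ 1 := by
      rw [hFe]
      have := hlipτ (-(s k)) (by rw [abs_neg, abs_of_pos hsk])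
      rw [abs_neg, abs_of_pos hsk] at this
      have := mul_le_mul_of_nonneg_left hju hsk.le
      linarith
    have hpos : 1 ≤ F (s k) := by
      rw [hFe]
      have := gap_nonneg (y k) (h0 - s k • u)
      have := mul_le_mul_of_nonneg_left hju hsk.le
      have := mul_nonneg he0.le hsk.le
      linarith
    obtain ⟨τ, ⟨hτ1, hτ2⟩, hτe⟩ := intermediate_value_Icc (by linarith)
      (show ContinuousOn F (Icc (-(s k)) (s k)) by rw [hF]; fun_prop)
      (show (1 : ℝ) ∈ Icc (F (-(s k))) (F (s k)) from ⟨hneg, hpos⟩)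
    have hτs : |τ| ≤ s k := abs_le.2 ⟨hτ1, hτ2⟩
    refine ⟨τ, ?_, by linarith [hd k], hτe⟩
    have h1 := hFe τ
    rw [hτe] at h1
    have h2 := hlipτ τ hτs
    have h3 : gap (y k) h0 ≤ (3 * K + 1) * M k := (gap_le_sgap _ _).trans ig
    have h4 := gap_nonneg (y k) (h0 - τ • u)
    have h5 : e * |τ| ≤ |τ * J (y k) u| := by
      rw [abs_mul, mul_comm]
      exact mul_le_mul_of_nonneg_left (hju.trans (neg_le_abs _)) (abs_nonneg _)
    have h6 : |τ * J (y k) u| ≤ Cw * M k + (3 * K + 1) * M k + e / 10 * |τ| := by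
      have := mul_nonneg (show 0 ≤ e / 10 by positivity) (abs_nonneg τ)
      have := mul_nonneg (show 0 ≤ 3 * K + 1 by linarith [c.K_nonneg]) hM.le
      exact abs_le.2 ⟨by linarith, by linarith⟩
    rw [hC, div_mul_eq_mul_div, le_div_iff₀ he0]
    have := mul_nonneg (abs_nonneg τ) he0.le
    linarith
  refine hkey.mono fun k i hh => ?_
  beta_reduce
  rw [dif_pos hh]
  obtain ⟨h1, h2, h3⟩ := hh.choose_spec
  generalize hh.choose = τ at h1 h2 h3 ⊢
  refine ⟨h3, ⟨(‖x k - y k‖ + τ) / ‖x k - y k‖, div_nonneg h2 (norm_nonneg _), ?_⟩, ?_⟩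
  · rw [sub_sub_cancel, show Inf.unit (x k - y k) = ‖x k - y k‖⁻¹ • (x k - y k) from rfl,
      smul_smul, div_eq_mul_inv]
  · have hd0 : (0 : ℝ) < ‖x k - y k‖ := c.δ_pos.trans_le (hd k)
    have e1 : P k i - (‖x k - y k‖ + τ) • Inf.unit (x k - y k) - y k - (P k i - x k)
        = -(τ • Inf.unit (x k - y k)) := by
      rw [add_smul, show Inf.unit (x k - y k) = ‖x k - y k‖⁻¹ • (x k - y k) from rfl,
        smul_inv_smul₀ hd0.ne']
      abel
    rw [e1, norm_neg, norm_smul, norm_unit (norm_pos_iff.1 hd0), mul_one]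
    exact h1

/-- Transfer of an admissible pair along lines parallel to the chord. -/
theorem transfer (c : Ctx f g s M L K δ) {y : ℕ → X} (hx : ∀ k, ‖x k‖ = 1) (hy : ∀ k, ‖y k‖ = 1)
    (hd : ∀ k, δ ≤ ‖x k - y k‖) (h : Adm l s M x P Q) :
    ∃ (P' Q' : ℕ → ι → X), Adm l s M y P' Q' ∧
      (Ev l fun k i => (∃ t : ℝ, 0 ≤ t ∧ P k i - P' k i = t • (x k - y k)) ∧
        ∃ t : ℝ, 0 ≤ t ∧ Q k i - Q' k i = t • (x k - y k)) ∧
      (Wk l M (fun k i => (P' k i - y k) - (P k i - x k)) ∧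
        Small l s fun k i => (P' k i - y k) - (P k i - x k)) ∧
      (Wk l M (fun k i => (Q' k i - y k) - (Q k i - x k)) ∧
        Small l s fun k i => (Q' k i - y k) - (Q k i - x k)) := by
  obtain ⟨P', C, hC, hP⟩ := h.transfer_one c hx hy hd
  obtain ⟨Q', D, hD, hQ⟩ := h.swap.transfer_one c hx hy hd
  have small_of : ∀ {C : ℝ} {q : ℕ → ι → X}, 0 ≤ C → (Ev l fun k i => ‖q k i‖ ≤ C * M k) →
      Small l s q := by
    intro C q hC hq η hη
    filter_upwards [hq, c.sc.small (η / (C + 1)) (by positivity)] with k hk ksm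
    filter_upwards [hk] with i hi
    refine hi.trans ((mul_le_mul_of_nonneg_left ksm hC).trans ?_)
    rw [← mul_assoc]
    refine mul_le_mul_of_nonneg_right ?_ (c.sc.s_pos k).le
    rw [← mul_div_assoc, div_le_iff₀ (by positivity)]
    linarith
  have hdP : Ev l fun k i => ‖(P' k i - y k) - (P k i - x k)‖ ≤ C * M k :=
    hP.mono fun _ _ hh => hh.2.2
  have hdQ : Ev l fun k i => ‖(Q' k i - y k) - (Q k i - x k)‖ ≤ D * M k :=
    hQ.mono fun _ _ hh => hh.2.2
  have wP := Wk.of_norm hC hdP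
  have wQ := Wk.of_norm hD hdQ
  have sP := small_of hC hdP
  have sQ := small_of hD hdQ
  refine ⟨P', Q', ⟨?_, ?_, ?_, ?_, ?_⟩, (hP.and hQ).mono fun k i hh => ⟨hh.1.2.1, hh.2.2.1⟩,
    ⟨wP, sP⟩, ⟨wQ, sQ⟩⟩
  · exact (hP.and hQ).mono fun k i hh => ⟨hh.1.1, hh.2.1⟩
  · intro η hη
    refine (((h.half (η / 2) (half_pos hη)).and (sP (η / 2) (half_pos hη))).and
      (sQ (η / 2) (half_pos hη))).mono fun k i ⟨⟨a, b⟩, b'⟩ => ?_
    have e : (1 / 2 : ℝ) • (P' k i - Q' k i) = (1 / 2 : ℝ) • (P k i - Q k i)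
        + (1 / 2 : ℝ) • (((P' k i - y k) - (P k i - x k)) - ((Q' k i - y k) - (Q k i - x k))) := by
      module
    rw [e]
    refine (norm_add_le _ _).trans ?_
    rw [norm_smul (1 / 2 : ℝ) (((P' k i - y k) - (P k i - x k)) - ((Q' k i - y k) - (Q k i - x k))),
      Real.norm_of_nonneg (by norm_num : (0 : ℝ) ≤ 1 / 2)]
    have := norm_sub_le ((P' k i - y k) - (P k i - x k)) ((Q' k i - y k) - (Q k i - x k))
    linarith
  · exact ((h.small.add sP).add sQ).congr
      (Eventually.of_forall fun k => Eventually.of_forall fun i => by module)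
  · exact ((h.wa.add (wP.smul (1 / 2))).add (wQ.smul (-(1 / 2)))).congr
      (Eventually.of_forall fun k => Eventually.of_forall fun i => by module)
  · exact ((h.ws.add wP).add wQ).congr
      (Eventually.of_forall fun k => Eventually.of_forall fun i => by module)

/-- The excess seen from the other end of the chord differs negligibly. -/
theorem psum_transfer (c : Ctx f g s M L K δ) {y : ℕ → X} {P' Q' : ℕ → ι → X}
    (h : Adm l s M x P Q)
    (hP : Wk l M (fun k i => (P' k i - y k) - (P k i - x k)) ∧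
      Small l s fun k i => (P' k i - y k) - (P k i - x k))
    (hQ : Wk l M (fun k i => (Q' k i - y k) - (Q k i - x k)) ∧
      Small l s fun k i => (Q' k i - y k) - (Q k i - x k))
    {η : ℝ} (hη : 0 < η) :
    ∀ᶠ k in atTop, ∀ v : X, δ ≤ ‖v‖ → ‖v‖ ≤ 3 → ∀ᶠ i in l,
      |gap v (-(P' k i - y k)) + gap v (-(Q' k i - y k)) - psum (x k) (P k i) (Q k i) v|
        ≤ η * M k := by
  have mk : ∀ {P Q P' : ℕ → ι → X}, Adm l s M x P Q →
      (Wk l M (fun k i => (P' k i - y k) - (P k i - x k)) ∧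
        Small l s fun k i => (P' k i - y k) - (P k i - x k)) →
      ∀ᶠ k in atTop, ∀ v : X, δ ≤ ‖v‖ → ‖v‖ ≤ 3 → ∀ᶠ i in l,
        |gap v (-(P' k i - y k)) - gap v (Q k i - x k)| ≤ η / 2 * M k := by
    intro P Q P' h hP
    have hn : Ev l fun k i => ‖Q k i - x k‖ ≤ 2 * s k :=
      (h.swap.norm_disp c.sc.s_pos).mono fun k i hi => by
        have := c.sc.s_pos k; linarith
    filter_upwards [c.bX.gap_perturb c.K_nonneg c.roundX c.sc c.δ_pos c.L_big h.swap.wk_disp
      ((h.ws.add hP.1).smul (-1)) hn ((h.small.add hP.2).smul (-1)) (half_pos hη)] with k hk v h1 h2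
    filter_upwards [hk v h1 h2] with i hi
    convert hi using 3
    congr 1
    module
  filter_upwards [mk h hP, mk h.swap hQ] with k k1 k2 v h1 h2
  filter_upwards [k1 v h1 h2, k2 v h1 h2] with i i1 i2
  simp only [psum]
  have a1 := abs_le.1 i1
  have a2 := abs_le.1 i2
  exact abs_le.2 ⟨by linarith, by linarith⟩

/-- One step of the orbit: monotonicity and telescoping. -/
theorem step (c : Ctx f g s M L K δ) {y : ℕ → X} (hx : ∀ k, ‖x k‖ = 1) (hy : ∀ k, ‖y k‖ = 1)
    (hd : ∀ k, δ ≤ ‖x k - y k‖) (h : Adm l s M x P Q) :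
    ∃ P1 Q1 : ℕ → ι → X, Adm l s M x P1 Q1 ∧ ∀ η : ℝ, 0 < η → Ev l fun k i =>
      sval f (x k) (P k i) (Q k i) (x k - y k) (f (x k) - f (y k))
          ≤ sval f (x k) (P1 k i) (Q1 k i) (x k - y k) (f (x k) - f (y k)) ∧
      2 * sval f (x k) (P k i) (Q k i) (x k - y k) (f (x k) - f (y k))
          ≤ psum (f (x k)) (f (P1 k i)) (f (Q1 k i)) (f (x k) - f (y k))
            - psum (f (x k)) (f (P k i)) (f (Q k i)) (f (x k) - f (y k)) + η * M k := by
  obtain ⟨A, B, hAB, htX, hAt, hBt⟩ := h.transfer c hx hy hd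
  have hfd : ∀ k, δ ≤ ‖f (y k) - f (x k)‖ := fun k => by
    rw [c.sph.iso _ _ (hy k) (hx k), norm_sub_rev]; exact hd k
  have hfy : ∀ k, ‖f (y k)‖ = 1 := fun k => c.sph.map _ (hy k)
  have hfx : ∀ k, ‖f (x k)‖ = 1 := fun k => c.sph.map _ (hx k)
  have hAB' := hAB.image c hy
  obtain ⟨A', B', hAB1, htY, hA't, hB't⟩ := hAB'.transfer c.symm hfy hfx hfd
  have hnew := hAB1.image c.symm hfx
  have hg : ∀ k, g (f (x k)) = x k := fun k => c.sph.left _ (hx k)
  simp only [hg] at hnew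
  refine ⟨_, _, hnew, fun η hη => ?_⟩
  have hw3 : ∀ k, ‖x k - y k‖ ≤ 3 := fun k =>
    (norm_sub_le _ _).trans (by rw [hx, hy]; norm_num)
  have hw3' : ∀ k, ‖f (y k) - f (x k)‖ ≤ 3 := fun k =>
    (norm_sub_le _ _).trans (by rw [hfx, hfy]; norm_num)
  have n1 := h.psum_transfer c hAt hBt (half_pos hη)
  have n2 := hAB'.psum_transfer c.symm hA't hB't (half_pos hη)
  have m1 : Ev l fun k i =>
      |gap (x k - y k) (-(A k i - y k)) + gap (x k - y k) (-(B k i - y k))
        - psum (x k) (P k i) (Q k i) (x k - y k)| ≤ η / 2 * M k := by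
    filter_upwards [n1] with k hk using hk _ (hd k) (hw3 k)
  have m2 : Ev l fun k i =>
      |gap (f (y k) - f (x k)) (-(A' k i - f (x k))) + gap (f (y k) - f (x k)) (-(B' k i - f (x k)))
        - psum (f (y k)) (f (A k i)) (f (B k i)) (f (y k) - f (x k))| ≤ η / 2 * M k := by
    filter_upwards [n2] with k hk using hk _ (hfd k) (hw3' k)
  refine ((((((h.unit).and hAB.unit).and hAB1.unit).and htX).and htY).and (m1.and m2)).mono
    fun k i hh => ?_
  obtain ⟨⟨⟨⟨⟨⟨hP1, hQ1⟩, hA1, hB1⟩, hA'1, hB'1⟩, hlX⟩, hlY⟩, hm1, hm2⟩ := hh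
  set w := x k - y k with hw
  set w' := f (x k) - f (y k) with hw'
  have hwn : 0 < ‖w‖ := c.δ_pos.trans_le (hd k)
  have hw'n : ‖w'‖ = ‖w‖ := c.sph.iso _ _ (hx k) (hy k)
  have hneg : ∀ h' : Y, gap (f (y k) - f (x k)) (-h') = gap w' h' := by
    intro h'
    have e : f (y k) - f (x k) = -w' := by rw [hw', neg_sub]
    simp only [gap, e, ← neg_add, norm_neg,
      c.roundY.J_neg (norm_pos_iff.1 (hw'n.symm ▸ hwn)), ContinuousLinearMap.neg_apply,
      _root_.map_neg, neg_neg]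
  have rel : ∀ p r : X, ‖p‖ = 1 → ‖r‖ = 1 →
      gap w' ((f p - f (x k)) - (f r - f (y k))) + J w' (f p - f (x k)) - J w' (f r - f (y k))
        = gap w ((p - x k) - (r - y k)) + J w (p - x k) - J w (r - y k) := by
    intro p r hp hr
    have e1 : w' + ((f p - f (x k)) - (f r - f (y k))) = f p - f r := by rw [hw']; abel
    have e2 : w + ((p - x k) - (r - y k)) = p - r := by rw [hw]; abel
    simp only [gap, e1, e2, c.sph.iso p r hp hr, hw'n, map_sub]
    ring
  have slackX : ∀ p r : X, (∃ t : ℝ, 0 ≤ t ∧ p - r = t • w) →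
      gap w ((p - x k) - (r - y k)) = 0 := by
    rintro p r ⟨t, ht, he⟩
    have e2 : (p - x k) - (r - y k) = (t - 1) • w := by rw [sub_smul, ← he, one_smul, hw]; abel
    rw [e2, gap, show w + (t - 1) • w = t • w by module, norm_smul, Real.norm_of_nonneg ht,
      map_smul, J_self, smul_eq_mul]
    ring
  have slackY : ∀ p r : Y, (∃ t : ℝ, 0 ≤ t ∧ r - p = t • (f (y k) - f (x k))) →
      gap w' ((p - f (x k)) - (r - f (y k))) = 0 := by
    rintro p r ⟨t, ht, he⟩
    have e1 : p - r = t • w' := by rw [hw', ← neg_sub r p, he, ← smul_neg, neg_sub]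
    have e2 : (p - f (x k)) - (r - f (y k)) = (t - 1) • w' := by
      rw [sub_smul, ← e1, one_smul, hw']; abel
    rw [e2, gap, show w' + (t - 1) • w' = t • w' by module, norm_smul, Real.norm_of_nonneg ht,
      map_smul, J_self, smul_eq_mul]
    ring
  have hgA : ‖g (A' k i)‖ = 1 := c.sph.map' _ hA'1
  have hgB : ‖g (B' k i)‖ = 1 := c.sph.map' _ hB'1
  have r1 := rel _ _ hP1 hA1
  have r2 := rel _ _ hQ1 hB1
  have r3 := rel _ _ hgA hA1
  have r4 := rel _ _ hgB hB1
  have r5 := rel _ _ hP1 (hy k)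
  have r6 := rel _ _ hQ1 (hy k)
  have r7 := rel _ _ (hx k) hA1
  have r8 := rel _ _ (hx k) hB1
  have hfA : f (g (A' k i)) = A' k i := c.sph.right _ hA'1
  have hfB : f (g (B' k i)) = B' k i := c.sph.right _ hB'1
  rw [slackX _ _ hlX.1] at r1
  rw [slackX _ _ hlX.2] at r2
  rw [hfA, slackY _ _ hlY.1] at r3
  rw [hfB, slackY _ _ hlY.2] at r4
  simp only [sub_self, sub_zero, zero_sub, _root_.map_zero] at r5 r6 r7 r8
  have p1 := gap_nonneg w' ((f (P k i) - f (x k)) - (f (A k i) - f (y k)))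
  have p2 := gap_nonneg w' ((f (Q k i) - f (x k)) - (f (B k i) - f (y k)))
  have p3 := gap_nonneg w ((g (A' k i) - x k) - (A k i - y k))
  have p4 := gap_nonneg w ((g (B' k i) - x k) - (B k i - y k))
  have h1 := hneg (A' k i - f (x k))
  have h2 := hneg (B' k i - f (x k))
  have h3 : gap (f (y k) - f (x k)) (f (A k i) - f (y k)) = gap w' (-(f (A k i) - f (y k))) := by
    rw [← hneg, neg_neg]
  have h4 : gap (f (y k) - f (x k)) (f (B k i) - f (y k)) = gap w' (-(f (B k i) - f (y k))) := by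
    rw [← hneg, neg_neg]
  simp only [psum] at hm1 hm2
  rw [h1, h2, h3, h4] at hm2
  have a1 := abs_le.1 hm1
  have a2 := abs_le.1 hm2
  simp only [sval, psum, hfA, hfB, map_sub, map_add, map_smul, smul_eq_mul, _root_.map_neg] at *
  constructor <;> linarith

/-- The orbit bound in one direction. -/
theorem sval_upper (c : Ctx f g s M L K δ) {y : ℕ → X} (hx : ∀ k, ‖x k‖ = 1)
    (hy : ∀ k, ‖y k‖ = 1) (hd : ∀ k, δ ≤ ‖x k - y k‖) (h : Adm l s M x P Q) {η : ℝ} (hη : 0 < η) :
    Ev l fun k i => sval f (x k) (P k i) (Q k i) (x k - y k) (f (x k) - f (y k)) ≤ η * M k := by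
  have key : ∀ (N : ℕ) (P Q : ℕ → ι → X), Adm l s M x P Q → ∃ P1 Q1 : ℕ → ι → X,
      Adm l s M x P1 Q1 ∧ ∀ η : ℝ, 0 < η → Ev l fun k i =>
        2 * N * sval f (x k) (P k i) (Q k i) (x k - y k) (f (x k) - f (y k))
          ≤ psum (f (x k)) (f (P1 k i)) (f (Q1 k i)) (f (x k) - f (y k))
            - psum (f (x k)) (f (P k i)) (f (Q k i)) (f (x k) - f (y k)) + η * M k := by
    intro N
    induction N with
    | zero =>
      intro P Q h
      refine ⟨P, Q, h, fun η hη => Eventually.of_forall fun k => Eventually.of_forall fun i => ?_⟩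
      have := mul_pos hη (c.sc.M_pos k)
      push_cast
      linarith
    | succ N ih =>
      intro P Q h
      obtain ⟨P1, Q1, h1, hst⟩ := h.step c hx hy hd
      obtain ⟨P2, Q2, h2, hih⟩ := ih P1 Q1 h1
      refine ⟨P2, Q2, h2, fun η hη => ?_⟩
      refine ((hst (η / 2) (half_pos hη)).and (hih (η / 2) (half_pos hη))).mono
        fun k i ⟨⟨a, b⟩, d⟩ => ?_
      have : 2 * (N : ℝ) * sval f (x k) (P k i) (Q k i) (x k - y k) (f (x k) - f (y k))
          ≤ 2 * (N : ℝ) * sval f (x k) (P1 k i) (Q1 k i) (x k - y k) (f (x k) - f (y k)) :=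
        mul_le_mul_of_nonneg_left a (by positivity)
      push_cast
      linarith
  obtain ⟨N, hN⟩ := exists_nat_gt ((2 * (3 * K + 1) + 1) / η)
  obtain ⟨P1, Q1, h1, hk⟩ := key N P Q h
  have him := (h1.image c hx).psum_le c.symm
  have hb : Ev l fun k i => psum (f (x k)) (f (P1 k i)) (f (Q1 k i)) (f (x k) - f (y k))
      ≤ 2 * (3 * K + 1) * M k := by
    filter_upwards [him] with k hk
    refine hk _ (by rw [c.sph.iso _ _ (hx k) (hy k)]; exact hd k) ?_
    rw [c.sph.iso _ _ (hx k) (hy k)]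
    exact (norm_sub_le _ _).trans (by rw [hx, hy]; norm_num)
  refine ((hk 1 one_pos).and hb).mono fun k i ⟨a, b⟩ => ?_
  have hp := psum_nonneg (f (x k)) (f (P k i)) (f (Q k i)) (f (x k) - f (y k))
  rw [div_lt_iff₀ hη] at hN
  by_contra hlt
  have hM := c.sc.M_pos k
  have hN0 : (0 : ℝ) < N := by
    rcases Nat.eq_zero_or_pos N with rfl | hN'
    · norm_num at hN
      linarith [c.K_nonneg]
    · exact_mod_cast hN'
  have := mul_lt_mul_of_pos_left (not_le.1 hlt) hN0
  have := mul_lt_mul_of_pos_right hN hM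
  have : 0 ≤ (N : ℝ) * η * M k := by positivity
  linarith

/-- The symmetrised second-order defect is negligible. -/
theorem sval_abs (c : Ctx f g s M L K δ) {y : ℕ → X} (hx : ∀ k, ‖x k‖ = 1) (hy : ∀ k, ‖y k‖ = 1)
    (hd : ∀ k, δ ≤ ‖x k - y k‖) (h : Adm l s M x P Q) {η : ℝ} (hη : 0 < η) :
    Ev l fun k i => |sval f (x k) (P k i) (Q k i) (x k - y k) (f (x k) - f (y k))| ≤ η * M k := by
  have hfx : ∀ k, ‖f (x k)‖ = 1 := fun k => c.sph.map _ (hx k)
  have hfy : ∀ k, ‖f (y k)‖ = 1 := fun k => c.sph.map _ (hy k)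
  have h2 := (h.image c hx).sval_upper c.symm hfx hfy
    (fun k => by rw [c.sph.iso _ _ (hx k) (hy k)]; exact hd k) hη
  refine (((h.sval_upper c hx hy hd hη).and h2).and h.unit).mono fun k i ⟨⟨a, b⟩, hu1, hu2⟩ => ?_
  simp only [sval, c.sph.left _ (hx k), c.sph.left _ (hy k), c.sph.left _ hu1,
    c.sph.left _ hu2] at a b ⊢
  exact abs_le.2 ⟨by linarith, a⟩

end Adm

end Vale.Agent.P084.Inf
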