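import Mathlib
import Vale.Agent.P084.Inf.Orbit

/-!
The transported dual map is bounded below at a point of almost maximal modulus.
-/

open Set Filter
open scoped Topology

namespace Vale.Agent.P084.Inf

variable {X Y : Type*} [NormedAddCommGroup X] [NormedSpace ℝ X] [NormedAddCommGroup Y]
  [NormedSpace ℝ Y] {f : X → Y} {g : Y → X} {s M : ℕ → ℝ} {L K δ : ℝ}

/-- The starting admissible pair at points of almost maximal modulus. -/
theorem Ctx.start (c : Ctx f g s M L K δ) {x : ℕ → X} (hx : ∀ k, ‖x k‖ = 1)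
    (hlow : ∀ k, ∀ F : Finset (StrongDual ℝ X), ∃ a, ‖a‖ ≤ s k ∧ Kills F a ∧
      M k / 2 < sgap (x k) a)
    {ι : Type*} {l : Filter ι} (G : ι → Finset (StrongDual ℝ X))
    (hG : ∀ φ : StrongDual ℝ X, ∀ᶠ i in l, φ ∈ G i) :
    ∃ P Q : ℕ → ι → X, Adm l s M x P Q ∧
      (Ev l fun k i => ‖P k i + Q k i - (2 : ℝ) • x k‖ ≤ 2 * K * M k) ∧
      Ev l fun k i => M k / 4 ≤ -J (x k) (P k i + Q k i - (2 : ℝ) • x k) := by
  classical
  choose a ha hak hag using fun k i => hlow k (insert (J (x k)) (G i))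
  refine ⟨fun k i => unit (x k + a k i), fun k i => unit (x k - a k i), ?_⟩
  have hL1 : 1 ≤ L := le_trans (by rw [le_div_iff₀ c.δ_pos]; linarith [c.δ_le]) c.L_big
  have hev : Ev l fun k i => sgap (x k) (a k i) ≤ K * M k := by
    filter_upwards [c.bX] with k hk
    obtain ⟨F, hF⟩ := hk (x k) (hx k)
    have : ∀ᶠ i in l, ∀ φ ∈ F, φ ∈ G i := by
      rw [Finset.eventually_all]
      exact fun φ _ => hG φ
    filter_upwards [this] with i hi
    exact hF _ ((ha k i).trans (le_mul_of_one_le_left (c.sc.s_pos k).le hL1))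
      fun φ hφ => hak k i φ (Finset.mem_insert_of_mem (hi φ hφ))
  have hj : ∀ k i, J (x k) (a k i) = 0 := fun k i => hak k i _ (Finset.mem_insert_self _ _)
  have hrp : ∀ k i, ‖x k + a k i‖ = 1 + gap (x k) (a k i) := fun k i => by
    simp only [gap, hj, hx]; ring
  have hrm : ∀ k i, ‖x k - a k i‖ = 1 + gap (x k) (-(a k i)) := fun k i => by
    simp only [gap, map_neg, hj, hx, ← sub_eq_add_neg]; ring
  have key : ∀ (z : X) (v : X), 1 ≤ ‖z‖ → ‖unit z - z‖ = ‖z‖ - 1 := by
    intro z v hz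
    have hz0 : (0 : ℝ) < ‖z‖ := by linarith
    have e : unit z - z = (‖z‖⁻¹ - 1) • z := by
      rw [sub_smul, one_smul]; rfl
    rw [e, norm_smul, Real.norm_eq_abs, abs_of_nonpos (sub_nonpos.2 (inv_le_one_of_one_le₀ hz)),
      neg_sub, sub_mul, inv_mul_cancel₀ hz0.ne', one_mul]
  have hPn : ∀ k i, ‖unit (x k + a k i) - (x k + a k i)‖ = gap (x k) (a k i) := fun k i => by
    rw [key _ (x k) (by rw [hrp]; linarith [gap_nonneg (x k) (a k i)]), hrp]; ring
  have hQn : ∀ k i, ‖unit (x k - a k i) - (x k - a k i)‖ = gap (x k) (-(a k i)) := fun k i => by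
    rw [key _ (x k) (by rw [hrm]; linarith [gap_nonneg (x k) (-(a k i))]), hrm]; ring
  have hσ : Ev l fun k i =>
      ‖unit (x k + a k i) + unit (x k - a k i) - (2 : ℝ) • x k‖ ≤ 2 * K * M k :=
    hev.mono fun k i hi => by
      have e : unit (x k + a k i) + unit (x k - a k i) - (2 : ℝ) • x k
          = (unit (x k + a k i) - (x k + a k i)) + (unit (x k - a k i) - (x k - a k i)) := by module
      rw [e]
      refine (norm_add_le _ _).trans ?_
      rw [hPn, hQn]
      have := mul_nonneg c.K_nonneg (c.sc.M_pos k).le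
      simp only [sgap] at hi
      linarith
  have hdiff : Ev l fun k i =>
      ‖(1 / 2 : ℝ) • (unit (x k + a k i) - unit (x k - a k i)) - a k i‖ ≤ K * M k :=
    hev.mono fun k i hi => by
      have e : (1 / 2 : ℝ) • (unit (x k + a k i) - unit (x k - a k i)) - a k i
          = (1 / 2 : ℝ) • ((unit (x k + a k i) - (x k + a k i))
              - (unit (x k - a k i) - (x k - a k i))) := by module
      rw [e, norm_smul, Real.norm_of_nonneg (by norm_num : (0 : ℝ) ≤ 1 / 2)]
      have := norm_sub_le (unit (x k + a k i) - (x k + a k i)) (unit (x k - a k i) - (x k - a k i))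
      rw [hPn, hQn] at this
      have := mul_nonneg c.K_nonneg (c.sc.M_pos k).le
      simp only [sgap] at hi
      linarith
  have hK : 0 ≤ K := c.K_nonneg
  have small_of : ∀ {C : ℝ} {q : ℕ → ι → X}, 0 ≤ C → (Ev l fun k i => ‖q k i‖ ≤ C * M k) →
      ∀ η : ℝ, 0 < η → Ev l fun k i => ‖q k i‖ ≤ η * s k := by
    intro C q hC hq η hη
    filter_upwards [hq, c.sc.small (η / (C + 1)) (by positivity)] with k hk ksm
    filter_upwards [hk] with i hi
    refine hi.trans ((mul_le_mul_of_nonneg_left ksm hC).trans ?_)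
    rw [← mul_assoc]
    refine mul_le_mul_of_nonneg_right ?_ (c.sc.s_pos k).le
    rw [← mul_div_assoc, div_le_iff₀ (by positivity)]
    linarith
  refine ⟨⟨?_, ?_, small_of (by positivity) hσ, ?_, Wk.of_norm (by positivity) hσ⟩, hσ, ?_⟩
  · refine Eventually.of_forall fun k => Eventually.of_forall fun i => ⟨?_, ?_⟩
    · exact norm_unit (norm_pos_iff.1 (by rw [hrp]; linarith [gap_nonneg (x k) (a k i)]))
    · exact norm_unit (norm_pos_iff.1 (by rw [hrm]; linarith [gap_nonneg (x k) (-(a k i))]))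
  · intro η hη
    refine (small_of hK hdiff η hη).mono fun k i hi => ?_
    have := norm_le_insert' ((1 / 2 : ℝ) • (unit (x k + a k i) - unit (x k - a k i))) (a k i)
    linarith [ha k i]
  · have h1 : Wk l M fun k i => a k i := by
      refine ⟨0, le_rfl, Eventually.of_forall fun k φ _ => ?_⟩
      filter_upwards [hG φ] with i hi
      rw [zero_mul, hak k i φ (Finset.mem_insert_of_mem hi), abs_zero]
    exact (h1.add (Wk.of_norm hK hdiff)).congr
      (Eventually.of_forall fun k => Eventually.of_forall fun i => by module)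
  · filter_upwards [hev, c.sc.small 1 one_pos, c.sc.eventually_lt K one_pos] with k hk ksm klt
    filter_upwards [hk] with i hi
    have hM := c.sc.M_pos k
    have hp := gap_nonneg (x k) (a k i)
    have hm := gap_nonneg (x k) (-(a k i))
    have hKM : K * M k ≤ 1 := by
      have := mul_le_mul_of_nonneg_left ksm hK
      linarith
    have e1 : J (x k) (unit (x k + a k i)) = (1 + gap (x k) (a k i))⁻¹ := by
      rw [unit, map_smul, map_add, hj, J_self, hx, hrp, smul_eq_mul]; ring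
    have e2 : J (x k) (unit (x k - a k i)) = (1 + gap (x k) (-(a k i)))⁻¹ := by
      rw [unit, map_smul, map_sub, hj, J_self, hx, hrm, smul_eq_mul]; ring
    rw [map_sub, map_add, map_smul, J_self, hx, e1, e2, smul_eq_mul]
    have bnd : ∀ r : ℝ, 0 ≤ r → r ≤ 1 → r / 2 ≤ 1 - (1 + r)⁻¹ := fun r h0 h1 => by
      have e : 1 - (1 + r)⁻¹ = r / (1 + r) := by field_simp; ring
      rw [e]
      exact div_le_div_of_nonneg_left h0 (by linarith) (by linarith)
    have hg := hag k i
    simp only [sgap] at hi hg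
    have := bnd _ hp (by linarith)
    have := bnd _ hm (by linarith)
    linarith

/-- The dual map transported by the isometry is bounded below. -/
theorem Ctx.combo (c : Ctx f g s M L K δ) {x : ℕ → X} (hx : ∀ k, ‖x k‖ = 1)
    (hlow : ∀ k, ∀ F : Finset (StrongDual ℝ X), ∃ a, ‖a‖ ≤ s k ∧ Kills F a ∧
      M k / 2 < sgap (x k) a) :
    ∃ C : ℝ, 0 ≤ C ∧ ∀ (n : ℕ) (y : Fin n → ℕ → X), (∀ j k, ‖y j k‖ = 1) →
      (∀ j k, δ ≤ ‖x k - y j k‖) → ∀ (b : Fin n → ℕ → ℝ) (B : ℝ), (∀ j k, |b j k| ≤ B) →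
        ∀ η : ℝ, 0 < η → ∀ᶠ k in atTop, ‖∑ j, b j k • J (x k - y j k)‖
          ≤ C * ‖∑ j, b j k • J (f (x k) - f (y j k))‖ + η := by
  classical
  set l : Filter (Finset (StrongDual ℝ X)) := atTop with hl
  obtain ⟨P, Q, hA, hσ, hκ⟩ := c.start hx hlow (l := l) id fun φ =>
    (eventually_ge_atTop ({φ} : Finset _)).mono fun F hF => hF (Finset.mem_singleton_self φ)
  obtain ⟨C1, hC1, hws⟩ := (hA.image c hx).ws
  have hK := c.K_nonneg
  refine ⟨2 + 4 * (4 * K + C1), by positivity, fun n y hy hd b B hb η hη => ?_⟩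
  set B' := (n : ℝ) * max B 0 + 1 with hB'
  have hB'0 : 0 < B' := by positivity
  have hsv : ∀ j, Ev l fun k i =>
      |sval f (x k) (P k i) (Q k i) (x k - y j k) (f (x k) - f (y j k))| ≤ η / (4 * B') * M k :=
    fun j => hA.sval_abs c hx (hy j) (hd j) (by positivity)
  filter_upwards [eventually_all.2 hsv, hσ, hκ, hws] with k ksv kσ kκ kws
  have hM := c.sc.M_pos k
  set ψ := ∑ j, b j k • J (x k - y j k) with hψ
  set φ := ∑ j, b j k • J (f (x k) - f (y j k)) with hφ
  have hbsum : ∀ (c0 : Fin n → ℝ) (e : ℝ), 0 ≤ e → (∀ j, |c0 j| ≤ e) →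
      |∑ j, b j k * c0 j| ≤ B' * e := by
    intro c0 e he hc0
    calc |∑ j, b j k * c0 j| ≤ ∑ j, |b j k * c0 j| := Finset.abs_sum_le_sum_abs _ _
      _ ≤ ∑ _j : Fin n, max B 0 * e := Finset.sum_le_sum fun j _ => by
          rw [abs_mul]
          exact mul_le_mul ((hb j k).trans (le_max_left _ _)) (hc0 j) (abs_nonneg _)
            (le_max_right _ _)
      _ ≤ B' * e := by
          rw [Finset.sum_const, Finset.card_univ, Fintype.card_fin, nsmul_eq_mul, hB']
          linarith
  -- first order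
  have hfirst : ∀ z : X, J (x k) z = 0 → ψ z ≤ ‖φ‖ * ‖z‖ := by
    intro z hz
    rcases eq_or_ne z 0 with rfl | hz0
    · simp
    have hzp := norm_pos_iff.2 hz0
    refine le_of_forall_pos_le_add fun e he => ?_
    set A := (2 * (‖ψ‖ + ‖φ‖ + B' * 4) + 1) * ‖z‖ with hAdef
    have hA0 : 0 < A := by positivity
    set ε := min 1 (e / A) with hε
    have hε0 : 0 < ε := lt_min one_pos (by positivity)
    obtain ⟨d1, hd1, hg1⟩ := c.roundX.gap_small ε hε0
    obtain ⟨d2, hd2, hg2⟩ := c.roundY.gap_small ε hε0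
    set t := min d1 (min d2 1) * δ / (4 * ‖z‖) with ht
    have ht0 : 0 < t := by have := c.δ_pos; positivity
    have htn : ‖t • z‖ = min d1 (min d2 1) * δ / 4 := by
      rw [norm_smul, Real.norm_of_nonneg ht0.le, ht]; field_simp
    have m1 : min d1 (min d2 1) * δ ≤ d1 * δ :=
      mul_le_mul_of_nonneg_right (min_le_left _ _) c.δ_pos.le
    have m2 : min d1 (min d2 1) * δ ≤ d2 * δ :=
      mul_le_mul_of_nonneg_right ((min_le_right _ _).trans (min_le_left _ _)) c.δ_pos.le
    have m3 : d1 * δ ≤ d1 := mul_le_of_le_one_right hd1.le c.δ_le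
    have hr0 := gap_nonneg (x k) (t • z)
    have hr1 : gap (x k) (t • z) ≤ ε * ‖t • z‖ :=
      hg1 _ _ (norm_pos_iff.1 (by rw [hx]; exact one_pos)) (by
        rw [htn, hx, mul_one]
        have := mul_pos hd1 c.δ_pos
        linarith)
    have hrn : ‖x k + t • z‖ = 1 + gap (x k) (t • z) := by
      simp only [gap, map_smul, hz, hx, smul_zero]; ring
    set p := unit (x k + t • z) with hp
    have hp1 : ‖p‖ = 1 := norm_unit (norm_pos_iff.1 (by rw [hrn]; linarith))
    have hpd : ‖p - x k - t • z‖ ≤ ε * ‖t • z‖ := by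
      have e1 : p - x k - t • z = (‖x k + t • z‖⁻¹ - 1) • (x k + t • z) := by
        rw [sub_smul, one_smul, hp, unit]; abel
      rw [e1, norm_smul, Real.norm_eq_abs, abs_of_nonpos (sub_nonpos.2 (inv_le_one_of_one_le₀ (by
        rw [hrn]; linarith))), neg_sub, sub_mul, inv_mul_cancel₀ (by rw [hrn]; linarith),
        one_mul, hrn]
      linarith
    have hε1 : ε ≤ 1 := min_le_left _ _
    have hεz : ε * ‖t • z‖ ≤ ‖t • z‖ := mul_le_of_le_one_left (norm_nonneg _) hε1
    have hpx : ‖p - x k‖ ≤ 2 * ‖t • z‖ := by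
      have := norm_le_insert' (p - x k) (t • z)
      linarith
    have hfp : ‖f p - f (x k)‖ = ‖p - x k‖ := c.sph.iso _ _ hp1 (hx k)
    have hJ : ∀ j, |J (f (x k) - f (y j k)) (f p - f (x k)) - J (x k - y j k) (p - x k)|
        ≤ ε * (2 * ‖t • z‖) := by
      intro j
      have hwn : ‖f (x k) - f (y j k)‖ = ‖x k - y j k‖ := c.sph.iso _ _ (hx k) (hy j k)
      have hw0 : x k - y j k ≠ 0 := norm_pos_iff.1 (c.δ_pos.trans_le (hd j k))
      have hw0' : f (x k) - f (y j k) ≠ 0 := norm_pos_iff.1 (by rw [hwn]; exact c.δ_pos.trans_le (hd j k))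
      have hδw1 : d1 * δ ≤ d1 * ‖x k - y j k‖ := mul_le_mul_of_nonneg_left (hd j k) hd1.le
      have hδw2 : d2 * δ ≤ d2 * ‖x k - y j k‖ := mul_le_mul_of_nonneg_left (hd j k) hd2.le
      have g1 := hg1 _ (p - x k) hw0 (by
        rw [htn] at hpx
        linarith [mul_pos hd1 c.δ_pos])
      have g2 := hg2 _ (f p - f (x k)) hw0' (by
        rw [hwn, hfp]
        rw [htn] at hpx
        linarith [mul_pos hd2 c.δ_pos])
      rw [hfp] at g2
      have hrel : gap (f (x k) - f (y j k)) (f p - f (x k)) + J (f (x k) - f (y j k)) (f p - f (x k))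
          = gap (x k - y j k) (p - x k) + J (x k - y j k) (p - x k) := by
        have e1 : f (x k) - f (y j k) + (f p - f (x k)) = f p - f (y j k) := by abel
        have e2 : x k - y j k + (p - x k) = p - y j k := by abel
        simp only [gap, e1, e2, c.sph.iso _ _ hp1 (hy j k), hwn]
        ring
      have := mul_le_mul_of_nonneg_left hpx hε0.le
      have := gap_nonneg (x k - y j k) (p - x k)
      have := gap_nonneg (f (x k) - f (y j k)) (f p - f (x k))
      exact abs_le.2 ⟨by linarith, by linarith⟩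
    have h1 := hbsum _ _ (by positivity) hJ
    have e3 : ∑ j, b j k * (J (f (x k) - f (y j k)) (f p - f (x k)) - J (x k - y j k) (p - x k))
        = φ (f p - f (x k)) - ψ (p - x k) := by
      rw [hφ, hψ]
      simp only [sum_apply, smul_apply, smul_eq_mul, mul_sub, Finset.sum_sub_distrib]
    rw [e3] at h1
    have h2 : φ (f p - f (x k)) ≤ ‖φ‖ * (‖t • z‖ + ε * ‖t • z‖) := by
      refine (le_abs_self _).trans ((φ.le_opNorm _).trans ?_)
      refine mul_le_mul_of_nonneg_left ?_ (norm_nonneg φ)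
      rw [hfp]
      have := norm_le_insert' (p - x k) (t • z)
      linarith
    have h3 : ψ (t • z) - ψ (p - x k) ≤ ‖ψ‖ * (ε * ‖t • z‖) := by
      rw [← map_sub]
      refine (le_abs_self _).trans ((ψ.le_opNorm _).trans ?_)
      rw [norm_sub_rev]
      exact mul_le_mul_of_nonneg_left hpd (norm_nonneg ψ)
    rw [norm_smul, Real.norm_of_nonneg ht0.le] at h1 h2 h3
    rw [map_smul, smul_eq_mul] at h3
    have h4 : t * ψ z ≤ t * (‖φ‖ * ‖z‖ + ε * A) := by
      have := (abs_le.1 h1).1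
      have : 0 ≤ ε * (t * ‖z‖) := by positivity
      have : 0 ≤ ‖ψ‖ * (ε * (t * ‖z‖)) := by positivity
      have : 0 ≤ ‖φ‖ * (ε * (t * ‖z‖)) := by positivity
      have : 0 ≤ B' * (ε * (t * ‖z‖)) := by positivity
      rw [hAdef]
      linarith
    have h5 := le_of_mul_le_mul_left h4 ht0
    have : ε * A ≤ e := by
      have := min_le_right 1 (e / A)
      rw [le_div_iff₀ hA0] at this
      exact this
    linarith
  set θ := ψ - ψ (x k) • J (x k) with hθ
  have hθn : ‖θ‖ ≤ 2 * ‖φ‖ := by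
    refine ContinuousLinearMap.opNorm_le_bound _ (by positivity) fun z => ?_
    set z0 := z - J (x k) z • x k with hz0
    have e : θ z = ψ z0 := by
      rw [hθ, hz0, sub_apply, smul_apply, map_sub, map_smul, smul_eq_mul, smul_eq_mul]; ring
    have hj0 : J (x k) z0 = 0 := by
      rw [hz0, map_sub, map_smul, J_self, hx, smul_eq_mul, mul_one, sub_self]
    have hn0 : ‖z0‖ ≤ 2 * ‖z‖ := by
      rw [hz0]
      refine (norm_sub_le _ _).trans ?_
      rw [norm_smul, hx, mul_one, Real.norm_eq_abs]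
      linarith [abs_J_le (x k) z]
    have h1 := hfirst z0 hj0
    have h2 := hfirst (-z0) (by rw [map_neg, hj0, neg_zero])
    rw [map_neg, norm_neg] at h2
    have h3 := mul_le_mul_of_nonneg_left hn0 (norm_nonneg φ)
    rw [Real.norm_eq_abs, e]
    exact abs_le.2 ⟨by linarith, by linarith⟩
  have hφσ : ∀ᶠ i in l,
      |φ (f (P k i) + f (Q k i) - (2 : ℝ) • f (x k))| ≤ C1 * ‖φ‖ * M k := by
    rcases eq_or_ne φ 0 with h0 | h0
    · exact Eventually.of_forall fun i => by simp [h0]
    · have hn : 0 < ‖φ‖ := norm_pos_iff.2 h0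
      filter_upwards [kws ((‖φ‖)⁻¹ • φ) (by
        rw [norm_smul, norm_inv, norm_norm, inv_mul_cancel₀ hn.ne'])] with i hi
      rw [smul_apply, smul_eq_mul, abs_mul, abs_of_nonneg (inv_nonneg.2 hn.le),
        inv_mul_le_iff₀ hn] at hi
      linarith
  have hall : ∀ᶠ i in l, ∀ j,
      |sval f (x k) (P k i) (Q k i) (x k - y j k) (f (x k) - f (y j k))| ≤ η / (4 * B') * M k :=
    eventually_all.2 fun j => ksv j
  obtain ⟨i, ⟨⟨⟨his, hiσ⟩, hiκ⟩, hiφ⟩⟩ :=
    (((hall.and kσ).and kκ).and hφσ).exists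
  have h1 := hbsum _ _ (by positivity) his
  have e1 : ∑ j, b j k * sval f (x k) (P k i) (Q k i) (x k - y j k) (f (x k) - f (y j k))
      = φ (f (P k i) + f (Q k i) - (2 : ℝ) • f (x k)) - ψ (P k i + Q k i - (2 : ℝ) • x k) := by
    rw [hφ, hψ]
    simp only [sval, sum_apply, smul_apply, smul_eq_mul, mul_sub, Finset.sum_sub_distrib]
  rw [e1] at h1
  have e2 : B' * (η / (4 * B') * M k) = η / 4 * M k := by field_simp
  rw [e2] at h1
  set σ := P k i + Q k i - (2 : ℝ) • x k with hσdef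
  have h2 : |θ σ| ≤ 2 * ‖φ‖ * (2 * K * M k) :=
    (θ.le_opNorm σ).trans (mul_le_mul hθn hiσ (norm_nonneg _) (by positivity))
  have e3 : ψ σ = θ σ + ψ (x k) * J (x k) σ := by
    rw [hθ, sub_apply, smul_apply, smul_eq_mul]; ring
  have h3 : |ψ (x k) * J (x k) σ| ≤ (4 * K + C1) * ‖φ‖ * M k + η / 4 * M k := by
    rw [show ψ (x k) * J (x k) σ = ψ σ - θ σ by linarith]
    have := abs_le.1 h1
    have := abs_le.1 h2
    have := abs_le.1 hiφ
    exact abs_le.2 ⟨by linarith, by linarith⟩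
  have h4 : |ψ (x k)| * (M k / 4) ≤ ((4 * K + C1) * ‖φ‖ + η / 4) * M k := by
    refine le_trans ?_ (h3.trans_eq (by ring))
    rw [abs_mul]
    exact mul_le_mul_of_nonneg_left (hiκ.trans (neg_le_abs _)) (abs_nonneg _)
  have h5 : |ψ (x k)| ≤ 4 * ((4 * K + C1) * ‖φ‖) + η := by
    by_contra hlt
    have := mul_lt_mul_of_pos_right (not_le.1 hlt) (show 0 < M k / 4 by positivity)
    linarith
  calc ‖ψ‖ = ‖θ + ψ (x k) • J (x k)‖ := by rw [hθ, sub_add_cancel]
    _ ≤ ‖θ‖ + |ψ (x k)| * ‖J (x k)‖ := by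
        refine (norm_add_le _ _).trans ?_
        rw [norm_smul, Real.norm_eq_abs]
    _ ≤ 2 * ‖φ‖ + |ψ (x k)| :=
        add_le_add hθn (mul_le_of_le_one_right (abs_nonneg _) (norm_J _))
    _ ≤ _ := by linarith

end Vale.Agent.P084.Inf
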