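import Mathlib
import Vale.Agent.P084.Inf.Sph

/-!
A lower bound for the asymptotic modulus of a rotund space and good scales.
-/

open Set Filter
open scoped Topology

namespace Vale.Agent.P084.Inf

variable {X : Type*} [NormedAddCommGroup X] [NormedSpace ℝ X]

theorem exists_kills (hinf : ¬ FiniteDimensional ℝ X) (F : Finset (StrongDual ℝ X)) :
    ∃ a : X, a ≠ 0 ∧ Kills F a := by
  by_contra hcon
  push Not at hcon
  set T : X →ₗ[ℝ] (F → ℝ) := LinearMap.pi fun φ => (φ.1 : X →ₗ[ℝ] ℝ) with hT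
  have hinj : Function.Injective T := by
    rw [injective_iff_map_eq_zero]
    intro a ha
    by_contra ha0
    exact hcon a ha0 fun φ hφ => congrFun ha ⟨φ, hφ⟩
  exact hinf (Module.Finite.of_injective T hinj)

/-- Vectors joined along a norming functional grow by a fixed factor. -/
theorem Rotund.grow (hX : Rotund X) : ∃ γ, 0 < γ ∧ ∀ (A B : X) (r : ℝ),
    0 ≤ r → r ≤ ‖A‖ → r ≤ ‖B‖ → J A B = 0 → (1 + γ) * r ≤ ‖A + B‖ := by
  haveI : UniformConvexSpace X := ⟨fun ε hε => by
    obtain ⟨δ, hδ, hc⟩ := hX ε hε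
    exact ⟨δ, hδ, fun x hx y hy hxy => hc x y hx hy hxy⟩⟩
  obtain ⟨δ, hδ, hball⟩ := exists_forall_closed_ball_dist_add_le_two_sub X
    (show (0 : ℝ) < 1 / 2 by norm_num)
  set γ := min 1 (δ / 4) with hγ
  have hγ0 : 0 < γ := lt_min one_pos (by positivity)
  refine ⟨γ, hγ0, fun A B r hr hA hB hAB => ?_⟩
  rcases hr.eq_or_lt with rfl | hr0
  · simp
  by_contra hlt
  push Not at hlt
  set R := (1 + γ) * r with hR
  have hR0 : 0 < R := by positivity
  have hAB0 : ‖A‖ ≤ ‖A + B‖ := by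
    have := J_le A (A + B)
    rwa [map_add, J_self, hAB, add_zero] at this
  set t := r / ‖B‖ with ht
  have hBp : 0 < ‖B‖ := hr0.trans_le hB
  have ht0 : 0 ≤ t := by positivity
  have ht1 : t ≤ 1 := by rw [ht, div_le_one hBp]; exact hB
  have htB : ‖t • B‖ = r := by
    rw [norm_smul, Real.norm_of_nonneg ht0, ht, div_mul_cancel₀ _ hBp.ne']
  have hmid : ‖A + t • B‖ ≤ ‖A + B‖ := by
    have e : A + t • B = (1 - t) • A + t • (A + B) := by module
    rw [e]
    refine (norm_add_le _ _).trans ?_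
    rw [norm_smul, norm_smul, Real.norm_of_nonneg ht0, Real.norm_of_nonneg (by linarith)]
    have := mul_le_mul_of_nonneg_left hAB0 (show 0 ≤ 1 - t by linarith)
    linarith
  have hn : ∀ z : X, ‖z‖ ≤ R → ‖R⁻¹ • z‖ ≤ 1 := fun z hz => by
    rw [norm_smul, norm_inv, Real.norm_of_nonneg hR0.le, inv_mul_le_iff₀ hR0, mul_one]
    exact hz
  have hc := hball (hn A (hAB0.trans hlt.le)) (hn (A + t • B) (hmid.trans hlt.le)) (by
    rw [← smul_sub, sub_add_cancel_left, norm_smul, norm_neg, htB, norm_inv,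
      Real.norm_of_nonneg hR0.le, le_inv_mul_iff₀ hR0, hR]
    have := mul_le_mul_of_nonneg_right (min_le_left 1 (δ / 4)) hr
    linarith)
  rw [← smul_add, norm_smul, norm_inv, Real.norm_of_nonneg hR0.le, inv_mul_le_iff₀ hR0] at hc
  have h2 := J_le A (A + (A + t • B))
  rw [map_add, map_add, map_smul, hAB, smul_zero, add_zero, J_self] at h2
  have h3 : δ * r ≤ δ * R := mul_le_mul_of_nonneg_left (by rw [hR]; linarith [mul_pos hγ0 hr0]) hδ.le
  have h4 : γ * r ≤ δ / 4 * r := mul_le_mul_of_nonneg_right (min_le_right _ _) hr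
  have : 0 < δ * r := mul_pos hδ hr0
  rw [hR] at hc h3
  linarith

/-- The asymptotic modulus decays at most polynomially. -/
theorem phi_lower (hR : Round X) (hX : Rotund X) (hinf : ¬ FiniteDimensional ℝ X) :
    ∃ γ, 0 < γ ∧ ∀ (k : ℕ) (s : ℝ), 0 < s → 8 ≤ s * (1 + γ) ^ k → 2 / 2 ^ k ≤ Phi X s := by
  classical
  obtain ⟨γ, hγ, hgrow⟩ := hX.grow
  refine ⟨γ, hγ, fun k s hs hk => le_of_forall_pos_le_add fun η hη => ?_⟩
  obtain ⟨v0', hv0'⟩ : ∃ v : X, v ≠ 0 := by
    by_contra hcon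
    push Not at hcon
    exact hinf (Module.Finite.of_injective (0 : X →ₗ[ℝ] (Fin 0 → ℝ))
      fun a b _ => by rw [hcon a, hcon b])
  set v0 := unit v0' with hv0
  have hv01 : ‖v0‖ = 1 := norm_unit hv0'
  set p := (Phi X s + η) / 2 with hp
  have hp0 : 0 ≤ p := by have := phi_nonneg (X := X) hs.le; positivity
  have hstep : ∀ (n : ℕ) (A : ℕ → X), ∃ z : X, ‖z‖ = s ∧ J v0 z = 0 ∧
      (∀ a b, b ≤ n → J (∑ i ∈ Finset.Ico a b, A i) z = 0) ∧
      (1 ≤ ‖v0 + ∑ i ∈ Finset.range n, A i‖ →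
        ‖v0 + ∑ i ∈ Finset.range n, A i + z‖ ≤ (1 + p) * ‖v0 + ∑ i ∈ Finset.range n, A i‖) := by
    intro n A
    set S := v0 + ∑ i ∈ Finset.range n, A i with hS
    set w := if 1 ≤ ‖S‖ then unit S else v0 with hw
    have hw1 : ‖w‖ = 1 := by
      rw [hw]; split_ifs with h
      · exact norm_unit (norm_pos_iff.1 (by linarith))
      · exact hv01
    obtain ⟨F, hF⟩ := exists_kills_le hw1 hs.le hη
    set F' := F ∪ insert (J v0) ((Finset.range (n + 1) ×ˢ Finset.range (n + 1)).image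
      fun q => J (∑ i ∈ Finset.Ico q.1 q.2, A i)) with hF'
    obtain ⟨a, ha0, ha⟩ := exists_kills hinf F'
    set z0 := s • unit a with hz0
    have hz0n : ‖z0‖ = s := by rw [hz0, norm_smul, norm_unit ha0, mul_one, Real.norm_of_nonneg hs.le]
    have hkill : ∀ φ ∈ F', φ z0 = 0 := fun φ hφ => by
      rw [hz0, unit, map_smul, map_smul, ha φ hφ, smul_zero, smul_zero]
    have hsum : ∀ a b, b ≤ n → J (∑ i ∈ Finset.Ico a b, A i) z0 = 0 := by
      intro a b hb
      rcases le_or_gt a n with ha' | ha'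
      · refine hkill _ (Finset.mem_union_right _ (Finset.mem_insert_of_mem ?_))
        exact Finset.mem_image.2 ⟨(a, b), Finset.mem_product.2
          ⟨Finset.mem_range.2 (by omega), Finset.mem_range.2 (by omega)⟩, rfl⟩
      · refine hkill _ (Finset.mem_union_right _ (Finset.mem_insert_of_mem ?_))
        refine Finset.mem_image.2 ⟨(0, 0), Finset.mem_product.2
          ⟨Finset.mem_range.2 (by omega), Finset.mem_range.2 (by omega)⟩, ?_⟩
        rw [Finset.Ico_eq_empty_of_le (show b ≤ a by omega), Finset.Ico_self]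
    have hv : J v0 z0 = 0 := hkill _ (Finset.mem_union_right _ (Finset.mem_insert_self _ _))
    by_cases hS1 : 1 ≤ ‖S‖
    · have hSp : 0 < ‖S‖ := by linarith
      have hg := hF (‖S‖⁻¹ • z0) (by
          rw [norm_smul, norm_inv, norm_norm, hz0n, inv_mul_le_iff₀ hSp]
          exact le_mul_of_one_le_left hs.le hS1)
        (fun φ hφ => by rw [map_smul, hkill φ (Finset.mem_union_left _ hφ), smul_zero])
      rw [hw, if_pos hS1, show unit S = ‖S‖⁻¹ • S from rfl,
        hR.sgap_scale (norm_pos_iff.1 hSp) (inv_pos.2 hSp), inv_mul_le_iff₀ hSp, sgap_eq] at hg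
      rcases le_total ‖S + z0‖ ‖S - z0‖ with h | h
      · refine ⟨z0, hz0n, hv, hsum, fun _ => ?_⟩
        rw [hp]; linarith
      · refine ⟨-z0, by rw [norm_neg, hz0n], by rw [map_neg, hv, neg_zero],
          fun a b hb => by rw [map_neg, hsum a b hb, neg_zero], fun _ => ?_⟩
        rw [← sub_eq_add_neg, hp]; linarith
    · exact ⟨z0, hz0n, hv, hsum, fun h => absurd h hS1⟩
  choose z hzn hzv hzk hzg using hstep
  set A : ℕ → ℕ → X := fun n => Nat.rec (fun _ => 0) (fun m Am => Function.update Am m (z m Am)) n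
    with hA
  have hAs : ∀ n, A (n + 1) = Function.update (A n) n (z n (A n)) := fun n => rfl
  set Z : ℕ → X := fun i => z i (A i) with hZ
  have hagree : ∀ n i, i < n → A n i = Z i := by
    intro n
    induction n with
    | zero => intro i hi; omega
    | succ n ih =>
      intro i hi
      rw [hAs]
      rcases eq_or_ne i n with rfl | hne
      · rw [Function.update_self]
      · rw [Function.update_of_ne hne]; exact ih i (by omega)
  have hsums : ∀ n a b, b ≤ n → ∑ i ∈ Finset.Ico a b, A n i = ∑ i ∈ Finset.Ico a b, Z i :=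
    fun n a b hb => Finset.sum_congr rfl fun i hi =>
      hagree n i (lt_of_lt_of_le (Finset.mem_Ico.1 hi).2 hb)
  have hk0 : ∀ n a b, b ≤ n → J (∑ i ∈ Finset.Ico a b, Z i) (Z n) = 0 := fun n a b hb => by
    rw [← hsums n a b hb]; exact hzk n (A n) a b hb
  have hblock : ∀ (j a : ℕ), s * (1 + γ) ^ j ≤ ‖∑ i ∈ Finset.Ico a (a + 2 ^ j), Z i‖ := by
    intro j
    induction j with
    | zero =>
      intro a
      rw [pow_zero, mul_one, pow_zero, Finset.sum_Ico_succ_top (le_refl a), Finset.Ico_self,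
        Finset.sum_empty, zero_add]
      exact (hzn _ _).ge
    | succ j ih =>
      intro a
      have e : a + 2 ^ (j + 1) = a + 2 ^ j + 2 ^ j := by ring
      rw [e, ← Finset.sum_Ico_consecutive (fun i => Z i) (Nat.le_add_right a (2 ^ j))
        (Nat.le_add_right (a + 2 ^ j) (2 ^ j)), pow_succ, ← mul_assoc, mul_comm _ (1 + γ)]
      refine hgrow _ _ _ (by positivity) (ih a) (ih (a + 2 ^ j)) ?_
      rw [_root_.map_sum]
      refine Finset.sum_eq_zero fun i hi => ?_
      exact hk0 i _ _ (Finset.mem_Ico.1 hi).1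
  have hS : ∀ n, 1 ≤ ‖v0 + ∑ i ∈ Finset.range n, Z i‖ ∧
      ‖v0 + ∑ i ∈ Finset.range n, Z i‖ ≤ (1 + p) ^ n := by
    intro n
    induction n with
    | zero => simp [hv01]
    | succ n ih =>
      have hJ : J v0 (v0 + ∑ i ∈ Finset.range (n + 1), Z i) = 1 := by
        rw [map_add, J_self, hv01, _root_.map_sum]
        simp [Z, hzv]
      refine ⟨hJ ▸ J_le v0 _, ?_⟩
      have hsn : ∑ i ∈ Finset.range n, A n i = ∑ i ∈ Finset.range n, Z i :=
        Finset.sum_congr rfl fun i hi => hagree n i (Finset.mem_range.1 hi)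
      have := hzg n (A n) (by rw [hsn]; exact ih.1)
      rw [hsn] at this
      rw [Finset.sum_range_succ, ← add_assoc, pow_succ, mul_comm _ (1 + p)]
      exact this.trans (mul_le_mul_of_nonneg_left ih.2 (by linarith))
  have h1 := hblock k 0
  rw [zero_add, ← Finset.range_eq_Ico] at h1
  have h2 := norm_le_add_norm_add (∑ i ∈ Finset.range (2 ^ k), Z i) v0
  rw [add_comm (∑ i ∈ Finset.range (2 ^ k), Z i), hv01] at h2
  have h3 := (hS (2 ^ k)).2
  have h4 : (1 + p) ^ (2 ^ k) ≤ Real.exp (p * 2 ^ k) := by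
    rw [show p * (2 : ℝ) ^ k = ((2 ^ k : ℕ) : ℝ) * p by push_cast; ring, Real.exp_nat_mul]
    exact pow_le_pow_left₀ (by linarith) (by linarith [Real.add_one_le_exp p]) _
  have h5 : 1 ≤ p * 2 ^ k := by
    by_contra hlt
    have := Real.exp_le_exp.2 (not_le.1 hlt).le
    linarith [Real.exp_one_lt_three]
  rw [div_le_iff₀ (by positivity)]
  rw [hp] at h5
  linarith

/-- Good scales: both moduli are doubling along a sequence tending to zero. -/
theorem exists_scales {Y : Type*} [NormedAddCommGroup Y] [NormedSpace ℝ Y] (hX : Round X)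
    (hY : Round Y) (hrX : Rotund X) (hinf : ¬ FiniteDimensional ℝ X) {L : ℝ} (hL : 1 < L) :
    ∃ (s M : ℕ → ℝ) (K : ℝ), 0 ≤ K ∧ Scales s M ∧ Bounded X s M L K ∧ Bounded Y s M L K ∧
      ∀ k, M k = max (Phi X (s k)) (Phi Y (s k)) := by
  obtain ⟨γ, hγ, hlow⟩ := phi_lower hX hrX hinf
  obtain ⟨l, hl⟩ := pow_unbounded_of_one_lt L (show 1 < 1 + γ by linarith)
  obtain ⟨k0, hk0⟩ := pow_unbounded_of_one_lt (8 : ℝ) (show 1 < 1 + γ by linarith)
  set K0 : ℝ := 2 * 2 ^ l with hK0
  have hK00 : 0 < K0 := by positivity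
  set Φ : ℝ → ℝ := fun r => max (Phi X r) (Phi Y r) with hΦ
  have hsm : ∀ m : ℕ, 0 < (L⁻¹) ^ m := fun m => by positivity
  have hlb : ∀ m : ℕ, 2 / (2 ^ k0 * (2 ^ l) ^ m) ≤ Φ ((L⁻¹) ^ m) := by
    intro m
    refine le_trans ?_ (le_max_left _ _)
    have := hlow (k0 + l * m) ((L⁻¹) ^ m) (hsm m) ?_
    · rwa [pow_add, pow_mul] at this
    · rw [inv_pow, le_inv_mul_iff₀ (by positivity), pow_add, pow_mul, mul_comm]
      exact mul_le_mul hk0.le (pow_le_pow_left₀ (by linarith) hl.le m) (by positivity) (by positivity)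
  have hpos : ∀ m, 0 < Φ ((L⁻¹) ^ m) := fun m => lt_of_lt_of_le (by positivity) (hlb m)
  have hex : ∀ n : ℕ, ∃ m, n ≤ m ∧ Φ ((L⁻¹) ^ m) ≤ K0 * Φ ((L⁻¹) ^ (m + 1)) := by
    intro n
    by_contra hcon
    push Not at hcon
    have hdec : ∀ i : ℕ, Φ ((L⁻¹) ^ (n + i)) * K0 ^ i ≤ Φ ((L⁻¹) ^ n) := by
      intro i
      induction i with
      | zero => simp
      | succ i ih =>
        refine le_trans ?_ ih
        rw [← add_assoc, pow_succ K0, ← mul_assoc, mul_right_comm]
        refine mul_le_mul_of_nonneg_right ?_ (by positivity)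
        rw [mul_comm]
        exact (hcon (n + i) (by omega)).le
    obtain ⟨i, hi⟩ := pow_unbounded_of_one_lt
      (Φ ((L⁻¹) ^ n) * 2 ^ k0 * (2 ^ l) ^ n) (show (1 : ℝ) < 2 by norm_num)
    have h1 : 2 / (2 ^ k0 * (2 ^ l) ^ (n + i)) * K0 ^ i ≤ Φ ((L⁻¹) ^ n) :=
      (mul_le_mul_of_nonneg_right (hlb (n + i)) (by positivity)).trans (hdec i)
    rw [hK0, mul_pow, div_mul_eq_mul_div, div_le_iff₀ (by positivity), pow_add] at h1
    have hp : (0 : ℝ) < (2 ^ l) ^ i := by positivity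
    have := mul_lt_mul_of_pos_right hi hp
    have : (0 : ℝ) < 2 ^ i * (2 ^ l) ^ i := by positivity
    linarith
  choose m hm hmK using hex
  set s : ℕ → ℝ := fun n => (L⁻¹) ^ (m n + 1) with hs
  have hs0 : Tendsto s atTop (𝓝 0) := by
    refine (tendsto_pow_atTop_nhds_zero_of_lt_one (by positivity) (inv_lt_one_of_one_lt₀ hL)).comp ?_
    exact tendsto_atTop_mono (fun n => (hm n).trans (Nat.le_succ _)) tendsto_id
  have hbd : ∀ (Z : Type _) [NormedAddCommGroup Z] [NormedSpace ℝ Z],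
      (∀ r, Phi Z r ≤ Φ r) → Bounded Z s (fun n => Φ (s n)) L (K0 + 1) := by
    intro Z _ _ hZ
    refine Eventually.of_forall fun n v hv => ?_
    have he : L * s n = (L⁻¹) ^ (m n) := by
      rw [hs]; simp only [pow_succ]
      field_simp
    obtain ⟨F, hF⟩ := exists_kills_le hv (by rw [he]; exact (hsm _).le : 0 ≤ L * s n)
      (hpos (m n + 1))
    refine ⟨F, fun a ha hk => (hF a ha hk).trans ?_⟩
    have := hZ (L * s n)
    rw [he] at this ⊢
    have h1 := hmK n
    simp only [hs]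
    linarith
  refine ⟨s, fun n => Φ (s n), K0 + 1, by linarith, ⟨fun n => hsm _, fun n => hpos _, hs0, ?_⟩,
    hbd X fun r => le_max_left _ _, ?_, fun _ => rfl⟩
  · intro η hη
    obtain ⟨d1, hd1, h1⟩ := hX.phi_small hη
    obtain ⟨d2, hd2, h2⟩ := hY.phi_small hη
    filter_upwards [hs0.eventually (eventually_lt_nhds (lt_min hd1 hd2))] with n hn
    exact max_le (h1 _ (hsm _).le (hn.le.trans (min_le_left _ _)))
      (h2 _ (hsm _).le (hn.le.trans (min_le_right _ _)))
  · refine Eventually.of_forall fun n v hv => ?_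
    have he : L * s n = (L⁻¹) ^ (m n) := by
      rw [hs]; simp only [pow_succ]
      field_simp
    obtain ⟨F, hF⟩ := exists_kills_le hv (by rw [he]; exact (hsm _).le : 0 ≤ L * s n)
      (hpos (m n + 1))
    refine ⟨F, fun a ha hk => (hF a ha hk).trans ?_⟩
    have h0 : Phi Y (L * s n) ≤ Φ (L * s n) := le_max_right _ _
    rw [he] at h0 ⊢
    have h1 := hmK n
    simp only [hs]
    linarith

end Vale.Agent.P084.Inf
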