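import Mathlib
import Vale.Agent.P084.Main
import Vale.Agent.P084.Inf.Combo
import Vale.Agent.P084.Inf.Scale

/-!
Tingley's problem for uniformly convex and uniformly smooth spaces.
-/

open Set Filter
open scoped Topology

namespace Vale.Agent.P084.Inf

variable {X Y : Type*} [NormedAddCommGroup X] [NormedSpace ℝ X] [NormedAddCommGroup Y]
  [NormedSpace ℝ Y]

theorem margin (hX : Round X) {c : ℝ} (hc : 0 < c) : ∃ d, 0 < d ∧ ∀ δ : ℝ, 0 < δ → δ ≤ d →
    ∀ x v : X, ‖x‖ = 1 → ‖v‖ = 1 → c ≤ J x v → ‖x - δ • v‖ < 1 := by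
  obtain ⟨d, hd, hb⟩ := hX.gap_small (c / 2) (half_pos hc)
  refine ⟨d, hd, fun δ hδ hδd x v hx hv hcv => ?_⟩
  have h1 := hb x (-(δ • v)) (norm_pos_iff.1 (by rw [hx]; exact one_pos))
    (by rw [norm_neg, norm_smul, hv, hx, mul_one, mul_one, Real.norm_of_nonneg hδ.le]; exact hδd)
  rw [norm_neg, norm_smul, hv, mul_one, Real.norm_of_nonneg hδ.le] at h1
  simp only [gap, map_neg, map_smul, smul_eq_mul, hx, ← sub_eq_add_neg] at h1
  have := mul_le_mul_of_nonneg_left hcv hδ.le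
  have := mul_pos hδ hc
  linarith

theorem exists_chord {x v : X} (hx : ‖x‖ = 1) (hv : ‖v‖ = 1) {δ : ℝ} (hδ : δ ≤ 3)
    (h : ‖x - δ • v‖ < 1) : ∃ t : ℝ, δ ≤ t ∧ t ≤ 3 ∧ ‖x - t • v‖ = 1 := by
  obtain ⟨t, ⟨ht1, ht2⟩, hte⟩ := intermediate_value_Icc hδ
    (show ContinuousOn (fun t : ℝ => ‖x - t • v‖) (Icc δ 3) by fun_prop)
    (show (1 : ℝ) ∈ Icc ‖x - δ • v‖ ‖x - (3 : ℝ) • v‖ from by
      refine ⟨h.le, ?_⟩
      have := norm_sub_norm_le ((3 : ℝ) • v) x
      rw [norm_sub_rev, norm_smul, hv, hx, Real.norm_of_nonneg (by norm_num : (0 : ℝ) ≤ 3)] at this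
      linarith)
  exact ⟨t, ht1, ht2, hte⟩

theorem Rotund.chord_margin (hX : Rotund X) {δ0 : ℝ} (h0 : 0 < δ0) : ∃ e, 0 < e ∧
    ∀ x y : X, ‖x‖ = 1 → ‖y‖ = 1 → δ0 ≤ ‖x - y‖ → e ≤ J x (unit (x - y)) := by
  obtain ⟨d, hd, hb⟩ := hX δ0 h0
  refine ⟨d / 2, half_pos hd, fun x y hx hy hxy => ?_⟩
  have h1 := hb x y hx hy hxy
  have h2 := J_le x (x + y)
  rw [map_add, J_self, hx] at h2
  have hp : 0 < ‖x - y‖ := h0.trans_le hxy
  have h4 : ‖x - y‖ ≤ 2 := (norm_sub_le _ _).trans (by rw [hx, hy]; norm_num)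
  rw [unit, map_smul, map_sub, J_self, hx, smul_eq_mul, le_inv_mul_iff₀ hp]
  have := mul_le_mul_of_nonneg_right h4 (half_pos hd).le
  linarith

variable {f : X → Y} {g : Y → X} {s M : ℕ → ℝ} {L K δ : ℝ}

/-- The pairings of norming functionals with chord directions are preserved in the limit. -/
theorem Ctx.crit (c : Ctx f g s M L K δ) [Nontrivial Y] {x : ℕ → X} (hx : ∀ k, ‖x k‖ = 1)
    (hlow : ∀ k, ∀ F : Finset (StrongDual ℝ X), ∃ a, ‖a‖ ≤ s k ∧ Kills F a ∧
      M k / 2 < sgap (x k) a)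
    {δ0 e : ℝ} (he : 0 < e) (hδ0 : δ ≤ δ0)
    (hmar : ∀ x y : Y, ‖x‖ = 1 → ‖y‖ = 1 → δ0 ≤ ‖x - y‖ → e ≤ J x (unit (x - y)))
    (hch : ∀ x v : Y, ‖x‖ = 1 → ‖v‖ = 1 → e / 2 ≤ J x v → ‖x - δ • v‖ < 1)
    {y z : ℕ → X} (hy : ∀ k, ‖y k‖ = 1) (hz : ∀ k, ‖z k‖ = 1)
    (hdy : ∀ k, δ0 ≤ ‖x k - y k‖) (hdz : ∀ k, δ0 ≤ ‖x k - z k‖) {ε : ℝ} (hε : 0 < ε) :
    ∀ᶠ k in atTop, |J (f (x k) - f (z k)) (unit (f (x k) - f (y k)))
      - J (x k - z k) (unit (x k - y k))| ≤ ε := by
  obtain ⟨t0, ht0, hdual⟩ := c.rotY.dual_smooth (ε / 2) (half_pos hε)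
  obtain ⟨d2, hd2, hrot⟩ := c.rotY (e / 2) (half_pos he)
  obtain ⟨C, hC, hcombo⟩ := c.combo hx hlow
  set t := min (min t0 (d2 / 8)) (1 / 4) with ht
  have htp : 0 < t := lt_min (lt_min ht0 (by positivity)) (by norm_num)
  have ht1 : t ≤ 1 / 4 := min_le_right _ _
  have ht2 : t ≤ t0 := (min_le_left _ _).trans (min_le_left _ _)
  have ht3 : t ≤ d2 / 8 := (min_le_left _ _).trans (min_le_right _ _)
  set η := ε * t / (4 * (C + 1)) with hη
  have hη0 : 0 < η := by positivity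
  obtain ⟨d1, hd1, hclose⟩ := c.roundY.J_close η hη0
  have main : ∀ τ : ℝ, |τ| = t → ∀ᶠ k in atTop,
      τ * J (x k - z k) (unit (x k - y k))
        ≤ τ * J (f (x k) - f (z k)) (unit (f (x k) - f (y k))) + ε * t := by
    intro τ hτ
    set φ : ℕ → StrongDual ℝ Y := fun k =>
      J (f (x k) - f (y k)) + τ • J (f (x k) - f (z k)) with hφ
    have hfx : ∀ k, ‖f (x k)‖ = 1 := fun k => c.sph.map _ (hx k)
    have hfy : ∀ k, ‖f (y k)‖ = 1 := fun k => c.sph.map _ (hy k)
    have hwy : ∀ k, 0 < ‖x k - y k‖ := fun k => c.δ_pos.trans_le (hδ0.trans (hdy k))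
    have hwy' : ∀ k, f (x k) - f (y k) ≠ 0 := fun k => norm_pos_iff.1 (by
      rw [c.sph.iso _ _ (hx k) (hy k)]; exact hwy k)
    have hu : ∀ k, ‖unit (f (x k) - f (y k))‖ = 1 := fun k => norm_unit (hwy' k)
    have hJu : ∀ k, J (unit (f (x k) - f (y k))) = J (f (x k) - f (y k)) := fun k =>
      c.roundY.J_smul (hwy' k) (inv_pos.2 (norm_pos_iff.2 (hwy' k)))
    have hsel : ∀ k, ∃ (zs : X) (_ : ‖zs‖ = 1), δ ≤ ‖x k - zs‖ ∧
        ‖φ k - ‖φ k‖ • J (f (x k) - f zs)‖ ≤ 2 * η := by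
      intro k
      set u := unit (f (x k) - f (y k)) with hu'
      obtain ⟨v, hv, hval⟩ := exists_near_norming (φ k)
        (lt_min (show (0 : ℝ) < d2 / 8 by positivity) (show 0 < d1 / 2 by positivity))
      have hjb : ∀ w : Y, ‖w‖ = 1 → |τ * J (f (x k) - f (z k)) w| ≤ t := fun w hw => by
        rw [abs_mul, hτ]
        refine mul_le_of_le_one_right htp.le ((abs_J_le _ w).trans hw.le)
      have hlow' : 1 - t ≤ ‖φ k‖ := by
        have h1 := (φ k).le_opNorm u
        rw [Real.norm_eq_abs, hu, mul_one] at h1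
        have e : φ k u = 1 + τ * J (f (x k) - f (z k)) u := by
          simp only [hφ, add_apply, smul_apply, smul_eq_mul]
          rw [← hJu, ← hu', J_self, hu]
        rw [e] at h1
        linarith [le_abs_self (1 + τ * J (f (x k) - f (z k)) u), (abs_le.1 (hjb u (hu k))).1]
      have hup : ‖φ k‖ ≤ 1 + t := by
        refine (norm_add_le _ _).trans (add_le_add (norm_J _) ?_)
        rw [norm_smul, Real.norm_eq_abs, hτ]
        exact mul_le_of_le_one_right htp.le (norm_J _)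
      have hJv : 1 - (2 * t + d2 / 8) ≤ J u v := by
        rw [hJu]
        have h1 := (abs_le.1 (hjb v hv)).2
        simp only [hφ, add_apply, smul_apply, smul_eq_mul] at hval
        have := min_le_left (d2 / 8) (d1 / 2)
        simp only [hφ] at hlow'
        linarith
      have huv : ‖u - v‖ < e / 2 := by
        by_contra hge
        have h1 := hrot u v (hu k) hv (not_lt.1 hge)
        have h2 := J_le u (u + v)
        rw [map_add, J_self, hu] at h2
        linarith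
      have hjv : e / 2 ≤ J (f (x k)) v := by
        have h1 := hmar _ _ (hfx k) (hfy k) (by rw [c.sph.iso _ _ (hx k) (hy k)]; exact hdy k)
        have h2 := J_le (f (x k)) (u - v)
        rw [map_sub] at h2
        linarith
      obtain ⟨r, hr1, -, hre⟩ := exists_chord (hfx k) hv (by linarith [c.δ_le])
        (hch _ _ (hfx k) hv hjv)
      have hr0 : 0 < r := c.δ_pos.trans_le hr1
      refine ⟨g (f (x k) - r • v), c.sph.map' _ hre, ?_, ?_⟩
      · rw [← c.sph.iso _ _ (hx k) (c.sph.map' _ hre), c.sph.right _ hre, sub_sub_cancel, norm_smul,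
          hv, mul_one, Real.norm_of_nonneg hr0.le]
        exact hr1
      · rw [c.sph.right _ hre, sub_sub_cancel,
          c.roundY.J_smul (norm_pos_iff.1 (by rw [hv]; exact one_pos)) hr0]
        have hn0 : 0 < ‖φ k‖ := by linarith
        have h1 : ‖(‖φ k‖)⁻¹ • φ k - J v‖ ≤ η := hclose v _ hv
          (by rw [norm_smul, norm_inv, norm_norm, inv_mul_cancel₀ hn0.ne']) (by
            rw [smul_apply, smul_eq_mul, le_inv_mul_iff₀ hn0]
            have := min_le_right (d2 / 8) (d1 / 2)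
            have := mul_le_mul_of_nonneg_right (show 1 / 2 ≤ ‖φ k‖ by linarith) hd1.le
            linarith)
        have e1 : φ k - ‖φ k‖ • J v = ‖φ k‖ • ((‖φ k‖)⁻¹ • φ k - J v) := by
          rw [smul_sub, smul_inv_smul₀ hn0.ne']
        rw [e1, norm_smul, Real.norm_of_nonneg (norm_nonneg _)]
        exact mul_le_mul (by linarith) h1 (norm_nonneg _) zero_le_two
    choose zs hzs hzd hzc using hsel
    have hb : ∀ (j : Fin 3) k, |(![fun _ => (1 : ℝ), fun _ => τ, fun k => -‖φ k‖] j) k| ≤ 2 := by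
      intro j k
      fin_cases j
      · simp
      · simp [hτ]; linarith
      · simp only [Matrix.cons_val_two, Matrix.tail_cons, Matrix.head_cons, abs_neg, abs_norm,
          Fin.reduceFinMk, Matrix.cons_val]
        refine (norm_add_le _ _).trans ?_
        have h1 := norm_J (f (x k) - f (y k))
        have h2 : ‖τ • J (f (x k) - f (z k))‖ ≤ t := by
          rw [norm_smul, Real.norm_eq_abs, hτ]
          exact mul_le_of_le_one_right htp.le (norm_J _)
        linarith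
    have hk := hcombo 3 ![y, z, zs]
      (fun j k => by fin_cases j <;> simp [hy, hz, hzs])
      (fun j k => by
        fin_cases j
        · exact hδ0.trans (hdy k)
        · exact hδ0.trans (hdz k)
        · exact hzd k)
      ![fun _ => (1 : ℝ), fun _ => τ, fun k => -‖φ k‖] 2 hb η hη0
    filter_upwards [hk] with k hk
    simp only [Fin.sum_univ_three, Matrix.cons_val_zero, Matrix.cons_val_one, Matrix.cons_val,
      one_smul, neg_smul, ← sub_eq_add_neg] at hk
    set u := unit (x k - y k) with hu'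
    have hu1 : ‖u‖ = 1 := norm_unit (norm_pos_iff.1 (hwy k))
    set ψ := J (x k - y k) + τ • J (x k - z k) with hψ
    have h1 : ‖ψ‖ ≤ ‖φ k‖ + ε * t / 2 := by
      have e1 : C * ‖φ k - ‖φ k‖ • J (f (x k) - f (zs k))‖ + η ≤ ε * t / 2 := by
        have := mul_le_mul_of_nonneg_left (hzc k) hC
        have : (2 * C + 2) * η = ε * t / 2 := by rw [hη]; field_simp; ring
        linarith
      have e2 : ‖φ k‖ * ‖J (x k - zs k)‖ ≤ ‖φ k‖ :=
        mul_le_of_le_one_right (norm_nonneg _) (norm_J _)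
      have e3 := norm_le_norm_add_norm_sub' ψ (‖φ k‖ • J (x k - zs k))
      rw [norm_smul, Real.norm_of_nonneg (norm_nonneg _)] at e3
      rw [norm_sub_rev] at e3
      have e5 : ψ - ‖φ k‖ • J (x k - zs k) = ψ + (-‖φ k‖) • J (x k - zs k) := by module
      have e6 : φ k - ‖φ k‖ • J (f (x k) - f (zs k))
          = φ k + (-‖φ k‖) • J (f (x k) - f (zs k)) := by module
      rw [e6] at e1
      have e4 : ‖ψ - ‖φ k‖ • J (x k - zs k)‖ ≤ ε * t / 2 := by rw [e5]; exact hk.trans e1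
      rw [norm_sub_rev] at e4
      linarith
    have h2 : ‖φ k‖ ≤ 1 + τ * J (f (x k) - f (z k)) (unit (f (x k) - f (y k))) + ε / 2 * t := by
      have h := hdual (unit (f (x k) - f (y k))) (J (f (x k) - f (z k))) τ (hu k) (norm_J _)
        (by rw [hτ]; exact ht2)
      rwa [hJu, hτ] at h
    have h3 : 1 + τ * J (x k - z k) u ≤ ‖ψ‖ := by
      have h4 := (le_abs_self _).trans (ψ.le_opNorm u)
      rw [hu1, mul_one, hψ, add_apply, smul_apply, smul_eq_mul] at h4
      rw [hu', unit, map_smul, J_self, smul_eq_mul, inv_mul_cancel₀ (hwy k).ne'] at h4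
      rw [hψ, hu']
      exact h4
    linarith
  filter_upwards [main t (abs_of_pos htp), main (-t) (by rw [abs_neg, abs_of_pos htp])] with k k1 k2
  refine abs_le.2 ⟨?_, ?_⟩
  · by_contra hlt
    have := mul_lt_mul_of_pos_left (not_le.1 hlt) htp
    linarith
  · by_contra hlt
    have := mul_lt_mul_of_pos_left (not_le.1 hlt) htp
    linarith

theorem Ctx.reindex (c : Ctx f g s M L K δ) {σ : ℕ → ℕ} (hσ : StrictMono σ) :
    Ctx f g (s ∘ σ) (M ∘ σ) L K δ := by
  have hσt := hσ.tendsto_atTop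
  exact ⟨c.sph, c.roundX, c.roundY, c.rotX, c.rotY,
    ⟨fun k => c.sc.s_pos _, fun k => c.sc.M_pos _, c.sc.lim.comp hσt,
      fun e he => hσt.eventually (c.sc.small e he)⟩,
    hσt.eventually c.bX, hσt.eventually c.bY, c.K_nonneg, c.δ_pos, c.δ_le, c.L_big, c.chordX,
    c.chordY⟩

/-- If the first space dominates along a subsequence, some point preserves all chord pairings up
to `η`. -/
theorem Ctx.point (c : Ctx f g s M L K δ) [Nontrivial Y] {η δ0 e : ℝ} (hη : 0 < η) (hη1 : η ≤ 1)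
    (hδ0 : δ0 = η / 4) (hδle : δ ≤ δ0) (he0 : 0 < e)
    (hmW : ∀ x y : Y, ‖x‖ = 1 → ‖y‖ = 1 → δ0 ≤ ‖x - y‖ → e ≤ J x (unit (x - y)))
    (hcW : ∀ x v : Y, ‖x‖ = 1 → ‖v‖ = 1 → e / 2 ≤ J x v → ‖x - δ • v‖ < 1)
    {σ : ℕ → ℕ} (hσ : StrictMono σ) (hMσ : ∀ k, M (σ k) = Phi X (s (σ k))) :
    ∃ x : X, ‖x‖ = 1 ∧ ∀ y z : X, ‖y‖ = 1 → ‖z‖ = 1 → η ≤ ‖x - z‖ →
      |J (f x - f z) (f x - f y) - J (x - z) (x - y)| ≤ η := by
  have hδ00 : 0 < δ0 := by rw [hδ0]; positivity
  have hx : ∀ k, ∃ x : X, ‖x‖ = 1 ∧ ∀ F : Finset (StrongDual ℝ X), ∃ a,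
      ‖a‖ ≤ s (σ k) ∧ Kills F a ∧ M (σ k) / 2 < sgap x a := fun k =>
    exists_above (c.sc.s_pos _).le
      (by rw [← hMσ k]; linarith [c.sc.M_pos (σ k)]) (by linarith [c.sc.M_pos (σ k)])
  choose x hx1 hxF using hx
  by_contra hcon
  push Not at hcon
  choose y z hy hz hxz hbad using fun k => hcon (x k) (hx1 k)
  set Bad := fun k => δ0 ≤ ‖x k - y k‖ with hBad
  classical
  set y' : ℕ → X := fun k => if δ0 ≤ ‖x k - y k‖ then y k else -x k with hy'
  have hy'1 : ∀ k, ‖y' k‖ = 1 := fun k => by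
    simp only [hy']; split_ifs <;> simp [hy, hx1]
  have hy'd : ∀ k, δ0 ≤ ‖x k - y' k‖ := fun k => by
    simp only [hy']; split_ifs with hh
    · exact hh
    · rw [sub_neg_eq_add, ← two_smul ℝ, norm_smul, hx1, Real.norm_two]; linarith
  have := (c.reindex hσ).crit hx1 hxF he0 hδle hmW hcW hy'1 hz hy'd
    (fun k => le_trans (by linarith) (hxz k)) (show 0 < η / 3 by positivity)
  obtain ⟨k, hk⟩ := this.exists
  have hbd := hbad k
  simp only [hy'] at hk
  split_ifs at hk with hh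
  · have hn : 0 < ‖x k - y k‖ := hδ00.trans_le hh
    have h2 : ‖x k - y k‖ ≤ 2 := (norm_sub_le _ _).trans (by rw [hx1, hy]; norm_num)
    simp only [unit, map_smul, smul_eq_mul] at hk
    rw [c.sph.iso _ _ (hx1 k) (hy k), ← mul_sub, abs_mul, abs_inv, abs_norm,
      inv_mul_le_iff₀ hn] at hk
    have := mul_le_mul_of_nonneg_right h2 (show 0 ≤ η / 3 by positivity)
    linarith
  · have h1 := abs_le.1 (abs_J_le (f (x k) - f (z k)) (f (x k) - f (y k)))
    have h2 := abs_le.1 (abs_J_le (x k - z k) (x k - y k))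
    rw [c.sph.iso _ _ (hx1 k) (hy k)] at h1
    have : |J (f (x k) - f (z k)) (f (x k) - f (y k)) - J (x k - z k) (x k - y k)| ≤ η :=
      abs_le.2 ⟨by linarith, by linarith⟩
    linarith

/-- At some point of the sphere all chord pairings are almost preserved. -/
theorem exists_point (h : SphEquiv f g) (hX : Round X) (hrX : Rotund X)
    (hinf : ¬ FiniteDimensional ℝ X) {η : ℝ} (hη : 0 < η) (hη1 : η ≤ 1) :
    ∃ x : X, ‖x‖ = 1 ∧ ∀ y z : X, ‖y‖ = 1 → ‖z‖ = 1 → η ≤ ‖x - z‖ →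
      |J (f x - f z) (f x - f y) - J (x - z) (x - y)| ≤ η := by
  haveI : Nontrivial X := by
    by_contra hn
    rw [not_nontrivial_iff_subsingleton] at hn
    exact hinf (Module.Finite.of_injective (0 : X →ₗ[ℝ] (Fin 0 → ℝ))
      fun a b _ => Subsingleton.elim a b)
  obtain ⟨u0', hu0'⟩ := exists_ne (0 : X)
  have hu0 : ‖unit u0'‖ = 1 := norm_unit hu0'
  haveI : Nontrivial Y := ⟨⟨f (unit u0'), 0, fun e => by
    have := h.map _ hu0; rw [e, norm_zero] at this; exact zero_ne_one this⟩⟩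
  have hY := h.round hX
  have hrY := h.rotund hrX
  set δ0 := η / 4 with hδ0
  have hδ00 : 0 < δ0 := by positivity
  obtain ⟨eX, heX, hmX⟩ := hrX.chord_margin hδ00
  obtain ⟨eY, heY, hmY⟩ := hrY.chord_margin hδ00
  set e := min (min eX eY) (1 / 2) with he
  have he0 : 0 < e := lt_min (lt_min heX heY) (by norm_num)
  obtain ⟨dX, hdX, hchX⟩ := margin hX (half_pos he0)
  obtain ⟨dY, hdY, hchY⟩ := margin hY (half_pos he0)
  set δ := min (min dX dY) δ0 with hδ
  have hδp : 0 < δ := lt_min (lt_min hdX hdY) hδ00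
  have hδdX : δ ≤ dX := (min_le_left _ _).trans (min_le_left _ _)
  have hδdY : δ ≤ dY := (min_le_left _ _).trans (min_le_right _ _)
  have hδ1 : δ ≤ 1 := (min_le_right _ _).trans (by linarith)
  have hL : 1 < 8 / δ := by rw [lt_div_iff₀ hδp]; linarith
  obtain ⟨s, M, K, hK, hsc, hbX, hbY, hM⟩ := exists_scales hX hY hrX hinf hL
  have hec : ∀ r : ℝ, 1 / 4 ≤ r → e / 2 ≤ r := fun r hr => by
    linarith [min_le_right (min eX eY) (1 / 2)]
  have ctx : Ctx f g s M (8 / δ) K δ :=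
    ⟨h, hX, hY, hrX, hrY, hsc, hbX, hbY, hK, hδp, hδ1, le_rfl,
      fun x v hx hv hj => hchX δ hδp hδdX x v hx hv (hec _ hj),
      fun x v hx hv hj => hchY δ hδp hδdY x v hx hv (hec _ hj)⟩
  by_cases hfr : ∃ᶠ k in atTop, Phi Y (s k) ≤ Phi X (s k)
  · obtain ⟨σ, hσ, hσP⟩ := extraction_of_frequently_atTop hfr
    exact ctx.point hη hη1 hδ0 (min_le_right _ _) he0
      (fun x y hx hy hxy => le_trans ((min_le_left _ _).trans (min_le_right _ _)) (hmY x y hx hy hxy))
      (fun x v hx hv hj => hchY δ hδp hδdY x v hx hv hj) hσ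
      (fun k => by rw [hM]; exact max_eq_left (hσP k))
  · obtain ⟨σ, hσ, hσP⟩ := extraction_of_frequently_atTop (not_frequently.1 hfr).frequently
    obtain ⟨y0, hy0, hprop⟩ := ctx.symm.point hη hη1 hδ0 (min_le_right _ _) he0
      (fun x y hx hy hxy => le_trans ((min_le_left _ _).trans (min_le_left _ _)) (hmX x y hx hy hxy))
      (fun x v hx hv hj => hchX δ hδp hδdX x v hx hv hj) hσ
      (fun k => by rw [hM]; exact max_eq_right (not_le.1 (hσP k)).le)
    refine ⟨g y0, h.map' _ hy0, fun y z hy hz hd => ?_⟩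
    have hd' : η ≤ ‖y0 - f z‖ := by
      rwa [← h.right _ hy0, h.iso _ _ (h.map' _ hy0) hz]
    have := hprop (f y) (f z) (h.map _ hy) (h.map _ hz) hd'
    rw [h.left _ hy, h.left _ hz] at this
    rw [h.right _ hy0, abs_sub_comm]
    exact this

/-- Linear relations between unit vectors are preserved. -/
theorem SphEquiv.relation (h : SphEquiv f g) (hX : Round X) (hrX : Rotund X)
    (hinf : ¬ FiniteDimensional ℝ X) {n : ℕ} (y : Fin n → X) (hy : ∀ i, ‖y i‖ = 1)
    (b : Fin n → ℝ) (hb : ∑ i, b i • y i = 0) : ∑ i, b i • f (y i) = 0 := by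
  by_contra hne
  obtain ⟨p, hp⟩ : ∃ p, p = ∑ i, b i • f (y i) := ⟨_, rfl⟩
  rw [← hp] at hne
  set B := ∑ i, |b i| + 1 with hB
  have hB0 : 0 < B := add_pos_of_nonneg_of_pos (Finset.sum_nonneg fun i _ => abs_nonneg _) one_pos
  set τ : ℝ := 1 / 8 with hτ
  have hY := h.round hX
  obtain ⟨d, hd, hch⟩ := margin hY (show (0 : ℝ) < τ / 2 by rw [hτ]; norm_num)
  have hpp : 0 < ‖p‖ := norm_pos_iff.2 hne
  set η := min (min d 1) (‖p‖ / (4 * B)) with hη
  have hη0 : 0 < η := lt_min (lt_min hd one_pos) (by positivity)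
  obtain ⟨x, hx, hprop⟩ := exists_point h hX hrX hinf hη0
    ((min_le_left _ _).trans (min_le_right _ _))
  have hfx := h.map _ hx
  obtain ⟨q, hq1, hq2, hq3⟩ : ∃ q : Y, ‖q‖ = 1 ∧ 0 ≤ J (f x) q ∧
      (q = unit p ∨ q = -unit p) := by
    rcases le_total 0 (J (f x) (unit p)) with h0 | h0
    · exact ⟨unit p, norm_unit hne, h0, Or.inl rfl⟩
    · exact ⟨-unit p, by rw [norm_neg, norm_unit hne], by rw [map_neg]; linarith, Or.inr rfl⟩
  set w := q + τ • f x with hw
  have hτn : ‖τ • f x‖ = τ := by rw [norm_smul, hfx, hτ]; norm_num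
  have hwn : ‖w‖ ≤ 1 + τ := (norm_add_le _ _).trans (by rw [hq1, hτn])
  have hwl : 1 - τ ≤ ‖w‖ := by
    have := norm_sub_norm_le q (-(τ • f x))
    rw [norm_neg, hτn, hq1, sub_neg_eq_add] at this
    exact this
  have hw0 : 0 < ‖w‖ := by rw [hτ] at hwl; linarith
  set v := unit w with hv
  have hv1 : ‖v‖ = 1 := norm_unit (norm_pos_iff.1 hw0)
  have hjv : τ / 2 ≤ J (f x) v := by
    rw [hv, unit, map_smul, smul_eq_mul, le_inv_mul_iff₀ hw0, hw, map_add, map_smul, J_self, hfx,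
      smul_eq_mul, mul_one]
    rw [hw] at hwn
    have := mul_le_mul_of_nonneg_right hwn (show 0 ≤ τ / 2 by rw [hτ]; norm_num)
    rw [hτ] at this ⊢
    linarith
  have hηd : η ≤ d := (min_le_left _ _).trans (min_le_left _ _)
  obtain ⟨t, ht1, -, hte⟩ := exists_chord hfx hv1
    (show η ≤ 3 by linarith [(min_le_left (min d 1) (‖p‖ / (4 * B))).trans (min_le_right _ _)])
    (hch η hη0 hηd _ _ hfx hv1 hjv)
  have ht0 : 0 < t := hη0.trans_le ht1
  set z := g (f x - t • v) with hz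
  have hz1 : ‖z‖ = 1 := h.map' _ hte
  have hxz : η ≤ ‖x - z‖ := by
    rw [← h.iso _ _ hx hz1, hz, h.right _ hte, sub_sub_cancel, norm_smul, hv1, mul_one,
      Real.norm_of_nonneg ht0.le]
    exact ht1
  have hJ : J (f x - f z) = J v := by
    rw [hz, h.right _ hte, sub_sub_cancel]
    exact hY.J_smul (norm_pos_iff.1 (by rw [hv1]; exact one_pos)) ht0
  have key : ∀ i, |J v (f (y i)) - J (x - z) (y i)| ≤ 2 * η := by
    intro i
    have h1 := hprop (y i) z (hy i) hz1 hxz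
    have h2 := hprop (-x) z (by rw [norm_neg, hx]) hz1 hxz
    rw [h.odd x hx, hJ, sub_neg_eq_add, sub_neg_eq_add, map_add, map_add] at h2
    rw [hJ, map_sub, map_sub] at h1
    have a1 := abs_le.1 h1
    have a2 := abs_le.1 h2
    exact abs_le.2 ⟨by linarith, by linarith⟩
  have hbnd : |J v p| ≤ B * (2 * η) := by
    have e : J v p = ∑ i, b i * (J v (f (y i)) - J (x - z) (y i)) := by
      have h0 := congrArg (J (x - z)) hb
      rw [map_sum, map_zero] at h0
      simp only [map_smul, smul_eq_mul] at h0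
      simp only [hp, map_sum, map_smul, smul_eq_mul, mul_sub, Finset.sum_sub_distrib, h0, sub_zero]
    rw [e]
    refine (Finset.abs_sum_le_sum_abs _ _).trans ?_
    calc ∑ i, |b i * (J v (f (y i)) - J (x - z) (y i))| ≤ ∑ i, |b i| * (2 * η) :=
          Finset.sum_le_sum fun i _ => by
            rw [abs_mul]; exact mul_le_mul_of_nonneg_left (key i) (abs_nonneg _)
      _ ≤ B * (2 * η) := by
          rw [← Finset.sum_mul]
          exact mul_le_mul_of_nonneg_right (by linarith) (by positivity)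
  have hq : 3 / 4 ≤ J v q := by
    have h1 : J v w = ‖w‖ := by
      have e : w = ‖w‖ • v := by rw [hv, unit, smul_inv_smul₀ hw0.ne']
      calc J v w = J v (‖w‖ • v) := by rw [← e]
        _ = ‖w‖ := by rw [map_smul, J_self, hv1, smul_eq_mul, mul_one]
    have h2 := J_le v (τ • f x)
    rw [hτn] at h2
    rw [hw, map_add] at h1
    rw [← hw] at h1
    rw [hτ] at hwl h2 h1
    linarith
  have hfin : 3 / 4 * ‖p‖ ≤ |J v p| := by
    have e : p = ‖p‖ • unit p := by rw [unit, smul_inv_smul₀ hpp.ne']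
    have h3 : |J v p| = ‖p‖ * |J v (unit p)| := by
      calc |J v p| = |J v (‖p‖ • unit p)| := by rw [← e]
        _ = ‖p‖ * |J v (unit p)| := by rw [map_smul, smul_eq_mul, abs_mul, abs_norm]
    rw [h3, mul_comm]
    refine mul_le_mul_of_nonneg_left (hq.trans ?_) hpp.le
    rcases hq3 with hh | hh
    · rw [hh]; exact le_abs_self _
    · rw [hh, map_neg]; exact neg_le_abs _
  have hη2 : B * (2 * η) ≤ ‖p‖ / 2 := by
    have := mul_le_mul_of_nonneg_left (min_le_right (min d 1) (‖p‖ / (4 * B))) hB0.le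
    rw [← hη] at this
    have e : B * (‖p‖ / (4 * B)) = ‖p‖ / 4 := by field_simp
    rw [e] at this
    linarith
  linarith

/-- Surjective isometries of unit spheres of uniformly convex, uniformly smooth spaces extend
linearly. -/
theorem tingley_uniform [UniformConvexSpace X] [Nontrivial X]
    (hs : ∀ ε : ℝ, 0 < ε → ∃ δ, 0 < δ ∧ ∀ x h : X, ‖x‖ = 1 → ‖h‖ ≤ δ →
      ‖x + h‖ + ‖x - h‖ ≤ 2 + ε * ‖h‖)
    (f0 : Metric.sphere (0 : X) 1 → Metric.sphere (0 : Y) 1) (hsurj : Function.Surjective f0)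
    (hiso : ∀ a b, ‖(f0 a : Y) - f0 b‖ = ‖(a : X) - b‖) :
    ∃ T : X ≃ₗᵢ[ℝ] Y, ∀ a : Metric.sphere (0 : X) 1, T a = f0 a := by
  classical
  by_cases hfin : FiniteDimensional ℝ X
  · exact Vale.Agent.P084.tingley_finiteDim f0 hsurj hiso
  have hX := round_of_smooth hs
  have hrX : Rotund X := rotund_of_uniformConvex
  have hinj : Function.Injective f0 := fun a b hab => by
    have := hiso a b
    rw [hab, sub_self, norm_zero, eq_comm, norm_eq_zero, sub_eq_zero] at this
    exact Subtype.ext this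
  set f : X → Y := fun v =>
    if hv : ‖v‖ = 1 then (f0 ⟨v, mem_sphere_zero_iff_norm.2 hv⟩ : Y) else 0 with hf
  set g : Y → X := fun w =>
    if hw : ‖w‖ = 1 then ((Function.surjInv hsurj ⟨w, mem_sphere_zero_iff_norm.2 hw⟩ :
      Metric.sphere (0 : X) 1) : X) else 0 with hg
  have hfv : ∀ a : Metric.sphere (0 : X) 1, f a = f0 a := fun a => by
    simp only [hf, dif_pos (norm_eq_of_mem_sphere a), Subtype.coe_eta]
  have map1 : ∀ x, ‖x‖ = 1 → ‖f x‖ = 1 := fun x hx => by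
    simp only [hf, dif_pos hx, norm_eq_of_mem_sphere]
  have left1 : ∀ x, ‖x‖ = 1 → g (f x) = x := fun x hx => by
    simp only [hg, dif_pos (map1 x hx)]
    simp only [hf, dif_pos hx, Subtype.coe_eta, Function.leftInverse_surjInv ⟨hinj, hsurj⟩ _]
  have right1 : ∀ y, ‖y‖ = 1 → f (g y) = y := fun y hy => by
    simp only [hg, dif_pos hy]
    rw [hfv, Function.surjInv_eq hsurj]
  have map1' : ∀ y, ‖y‖ = 1 → ‖g y‖ = 1 := fun y hy => by
    simp only [hg, dif_pos hy, norm_eq_of_mem_sphere]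
  have iso1 : ∀ x y, ‖x‖ = 1 → ‖y‖ = 1 → ‖f x - f y‖ = ‖x - y‖ := fun x y hx hy => by
    simp only [hf, dif_pos hx, dif_pos hy, hiso]
  have hSE : SphEquiv f g := by
    refine ⟨map1, map1', left1, right1, iso1, fun x hx => ?_⟩
    have hn : ‖-f x‖ = 1 := by rw [norm_neg]; exact map1 x hx
    have hb := map1' _ hn
    have h2 : ‖x - g (-f x)‖ = 2 := by
      rw [← iso1 _ _ hx hb, right1 _ hn, sub_neg_eq_add, ← two_smul ℝ, norm_smul, map1 x hx,
        Real.norm_two, mul_one]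
    rw [← hrX.eq_neg hx hb h2, right1 _ hn]
  set F : X → Y := fun z => ‖z‖ • f (unit z) with hF
  set G : Y → X := fun w => ‖w‖ • g (unit w) with hG
  have hhom : ∀ (z : X), z ≠ 0 → ‖z‖ • unit z = z := fun z hz => by
    rw [unit, smul_inv_smul₀ (norm_ne_zero_iff.2 hz)]
  obtain ⟨u0', hu0'⟩ := exists_ne (0 : X)
  set pick : X → X := fun z => if z = 0 then unit u0' else unit z with hpick
  have hpick1 : ∀ z, ‖pick z‖ = 1 := fun z => by
    simp only [hpick]; split_ifs with h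
    · exact norm_unit hu0'
    · exact norm_unit h
  have hpz : ∀ z, ‖z‖ • pick z = z := fun z => by
    simp only [hpick]; split_ifs with h
    · simp [h]
    · exact hhom z h
  have hFp : ∀ z, F z = ‖z‖ • f (pick z) := fun z => by
    simp only [hF, hpick]; split_ifs with h
    · simp [h]
    · rfl
  have hadd : ∀ a b, F (a + b) = F a + F b := by
    intro a b
    have := hSE.relation hX hrX hfin ![pick a, pick b, pick (a + b)]
      (fun i => by fin_cases i <;> simp [hpick1]) ![‖a‖, ‖b‖, -‖a + b‖]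
      (by simp [Fin.sum_univ_three, hpz])
    simp [Fin.sum_univ_three] at this
    rw [hFp, hFp, hFp]
    rw [← sub_eq_zero, ← neg_eq_zero, ← this]
    abel
  have hsmul : ∀ (c : ℝ) (a : X), F (c • a) = c • F a := by
    intro c a
    have := hSE.relation hX hrX hfin ![pick a, pick (c • a)]
      (fun i => by fin_cases i <;> simp [hpick1]) ![c * ‖a‖, -‖c • a‖]
      (by simp [Fin.sum_univ_two, hpz, mul_smul])
    simp [Fin.sum_univ_two, mul_smul] at this
    rw [hFp, hFp]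
    exact (sub_eq_zero.1 (by rw [← this]; abel)).symm
  have hnorm : ∀ z, ‖F z‖ = ‖z‖ := fun z => by
    rw [hFp, norm_smul, map1 _ (hpick1 z), mul_one, norm_norm]
  set Fl : X →ₗᵢ[ℝ] Y := ⟨{ toFun := F, map_add' := hadd, map_smul' := hsmul }, hnorm⟩ with hFl
  have hsur : Function.Surjective Fl := fun w => by
    rcases eq_or_ne w 0 with rfl | hw
    · exact ⟨0, Fl.map_zero⟩
    · refine ⟨‖w‖ • g (unit w), ?_⟩
      have hgw := map1' _ (norm_unit hw)
      rw [map_smul]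
      show ‖w‖ • F (g (unit w)) = w
      have e : F (g (unit w)) = unit w := by
        show ‖g (unit w)‖ • f (unit (g (unit w))) = unit w
        rw [show unit (g (unit w)) = g (unit w) by
          rw [Vale.Agent.P084.Inf.unit, hgw, inv_one, one_smul], hgw, one_smul,
          right1 _ (norm_unit hw)]
      rw [e, unit, smul_inv_smul₀ (norm_ne_zero_iff.2 hw)]
  refine ⟨LinearIsometryEquiv.ofSurjective Fl hsur, fun a => ?_⟩
  show F a = f0 a
  rw [← hfv a]
  simp only [hF, norm_eq_of_mem_sphere, one_smul, unit, inv_one]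

end Vale.Agent.P084.Inf
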